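import Crest.Agent.R286.Defs

set_option autoImplicit false

namespace Crest.Agent.R286

variable {lt : ℕ → ℕ → Prop} {X Y : Finset ℕ} {k m : ℕ} {τ ρ : ℕ → ℕ}

/-- The slots before `s`. -/
theorem Perf.pre (h : Perf lt X k τ) {s : ℕ} (h1 : 1 ≤ s) (hs : s ≤ k + 1) :
    Perf lt (X.filter (fun j => τ j < s)) (s - 1) τ := by
  refine ⟨fun j hj => ?_, fun t ht1 ht2 => ?_, fun u hu v hv huv => ?_⟩
  · obtain ⟨hj1, hj2⟩ := Finset.mem_filter.1 hj
    have := h.rng j hj1
    omega
  · rw [← h.full t ht1 (by omega)]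
    congr 1
    ext j
    simp only [Finset.mem_filter]
    constructor
    · exact fun hj => ⟨hj.1.1, hj.2⟩
    · exact fun hj => ⟨⟨hj.1, by omega⟩, hj.2⟩
  · exact h.prec u (Finset.mem_filter.1 hu).1 v (Finset.mem_filter.1 hv).1 huv

/-- The slots from `s` on. -/
theorem Perf.suf (h : Perf lt X k τ) {s : ℕ} (h1 : 1 ≤ s) (hs : s ≤ k + 1) :
    Perf lt (X.filter (fun j => s ≤ τ j)) (k + 1 - s) (fun j => τ j + 1 - s) := by
  refine ⟨fun j hj => ?_, fun t ht1 ht2 => ?_, fun u hu v hv huv => ?_⟩
  · obtain ⟨hj1, hj2⟩ := Finset.mem_filter.1 hj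
    have := h.rng j hj1
    omega
  · rw [← h.full (t + s - 1) (by omega) (by omega)]
    congr 1
    ext j
    simp only [Finset.mem_filter]
    constructor
    · exact fun hj => ⟨hj.1.1, by omega⟩
    · exact fun hj => ⟨⟨hj.1, by omega⟩, by omega⟩
  · obtain ⟨hu1, hu2⟩ := Finset.mem_filter.1 hu
    obtain ⟨hv1, hv2⟩ := Finset.mem_filter.1 hv
    have := h.prec u hu1 v hv1 huv
    omega

theorem Perf.concat (h₁ : Perf lt X k τ) (h₂ : Perf lt Y m ρ) (hd : Disjoint X Y)
    (hp : ∀ u ∈ Y, ∀ v ∈ X, ¬ lt u v) :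
    Perf lt (X ∪ Y) (k + m) (fun j => if j ∈ X then τ j else ρ j + k) := by
  have hd' : ∀ j ∈ Y, j ∉ X := fun j hj hX => Finset.disjoint_left.1 hd hX hj
  refine ⟨fun j hj => ?_, fun t ht1 ht2 => ?_, fun u hu v hv huv => ?_⟩
  · by_cases hX : j ∈ X
    · have := h₁.rng j hX
      simp only [if_pos hX]
      omega
    · have := h₂.rng j ((Finset.mem_union.1 hj).resolve_left hX)
      simp only [if_neg hX]
      omega
  · by_cases htk : t ≤ k
    · rw [← h₁.full t ht1 htk]
      congr 1
      ext j
      simp only [Finset.mem_filter, Finset.mem_union]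
      by_cases hX : j ∈ X
      · simp [hX]
      · simp only [hX, false_or, if_false, false_and, iff_false, not_and]
        intro hY
        have := h₂.rng j hY
        omega
    · rw [← h₂.full (t - k) (by omega) (by omega)]
      congr 1
      ext j
      simp only [Finset.mem_filter, Finset.mem_union]
      by_cases hX : j ∈ X
      · have := h₁.rng j hX
        simp only [hX, true_or, if_true, true_and]
        exact ⟨fun h => by omega, fun h => absurd hX (hd' j h.1)⟩
      · simp only [hX, false_or, if_false]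
        exact and_congr_right fun _ => by omega
  · by_cases hX : u ∈ X
    · by_cases hX' : v ∈ X
      · simp only [if_pos hX, if_pos hX']
        exact h₁.prec u hX v hX' huv
      · have h1 := h₁.rng u hX
        have h2 := h₂.rng v ((Finset.mem_union.1 hv).resolve_left hX')
        simp only [if_pos hX, if_neg hX']
        omega
    · have hY := (Finset.mem_union.1 hu).resolve_left hX
      by_cases hX' : v ∈ X
      · exact absurd huv (hp u hY v hX')
      · have := h₂.prec u hY v ((Finset.mem_union.1 hv).resolve_left hX') huv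
        simp only [if_neg hX, if_neg hX']
        omega

/-- Exchange a source `v` with an earlier job `b` whose successors all come after `v`. -/
theorem Perf.swap (h : Perf lt X k τ) {v b : ℕ} (hv : v ∈ X) (hb : b ∈ X) (hlt : τ b < τ v)
    (hsrc : ∀ u ∈ X, ¬ lt u v) (hsucc : ∀ c ∈ X, lt b c → τ v < τ c) :
    Perf lt X k (fun j => if j = v then τ b else if j = b then τ v else τ j) := by
  have e : ∀ j, (if j = v then τ b else if j = b then τ v else τ j) = τ (Equiv.swap v b j) := by
    intro j
    rw [Equiv.swap_apply_def]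
    split_ifs <;> rfl
  have hm : ∀ j ∈ X, Equiv.swap v b j ∈ X := by
    intro j hj
    rw [Equiv.swap_apply_def]
    split_ifs <;> assumption
  refine ⟨fun j hj => ?_, fun t ht1 ht2 => ?_, fun u hu w hw huw => ?_⟩
  · rw [e]
    exact h.rng _ (hm j hj)
  · rw [← h.full t ht1 ht2]
    simp only [e]
    refine Finset.card_bij (fun j _ => Equiv.swap v b j) (fun j hj => ?_)
      (fun i _ j _ hij => (Equiv.swap v b).injective hij) (fun j hj => ?_)
    · exact Finset.mem_filter.2 ⟨hm j (Finset.mem_filter.1 hj).1, (Finset.mem_filter.1 hj).2⟩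
    · refine ⟨Equiv.swap v b j, Finset.mem_filter.2 ⟨hm j (Finset.mem_filter.1 hj).1, ?_⟩,
        Equiv.swap_apply_self _ _ _⟩
      rw [Equiv.swap_apply_self]
      exact (Finset.mem_filter.1 hj).2
  · have h1 := h.prec u hu w hw huw
    have hwv : w ≠ v := fun hwv => hsrc u hu (hwv ▸ huw)
    simp only [if_neg hwv]
    by_cases huv : u = v
    · subst huv
      rw [if_pos rfl]
      split_ifs with hwb
      · exact hlt
      · omega
    · rw [if_neg huv]
      by_cases hub : u = b
      · subst hub
        rw [if_pos rfl, if_neg (fun hwb => by rw [hwb] at h1; omega)]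
        exact hsucc w hw huw
      · rw [if_neg hub]
        split_ifs with hwb
        · rw [hwb] at h1; omega
        · exact h1

theorem Perf.card (h : Perf lt X k τ) : X.card = 3 * k := by
  rw [Finset.card_eq_sum_card_fiberwise (f := τ) (t := Finset.Icc 1 k)
    (fun j hj => Finset.mem_coe.2 (Finset.mem_Icc.2 (h.rng j hj))),
    Finset.sum_congr rfl fun t ht => h.full t (Finset.mem_Icc.1 ht).1 (Finset.mem_Icc.1 ht).2]
  simp [mul_comm]

/-- A single slot. -/
theorem Perf.single (hc : X.card = 3) (ha : ∀ u ∈ X, ∀ v ∈ X, ¬ lt u v) :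
    Perf lt X 1 (fun _ => 1) := by
  refine ⟨fun _ _ => ⟨le_rfl, le_rfl⟩, fun t ht1 ht2 => ?_, fun u hu v hv huv =>
    absurd huv (ha u hu v hv)⟩
  obtain rfl : t = 1 := le_antisymm ht2 ht1
  simpa using hc

end Crest.Agent.R286
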