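import Crest.Agent.R286.Select
import Crest.Agent.R286.Swap

set_option autoImplicit false

namespace Crest.Agent.R286

/-- Structural invariants of a window `(W, V)`. -/
structure Inv (N : ℕ) (lt : ℕ → ℕ → Prop) (rk : ℕ → ℕ) (t : Fin 3 → Tm) (up : ℕ × ℕ)
    (W V : Finset ℕ) : Prop where
  str : Str N lt t
  up1 : up.1 ≤ N
  up2 : up.2 ≤ N
  wN : ∀ w ∈ W, w < N
  vN : ∀ u ∈ V, u < N
  disj : Disjoint W V
  np : ∀ w ∈ W, NP N lt rk t w
  wup : ∀ w ∈ W, inUp N lt up w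
  clo : ∀ u, u ∈ W ∨ u ∈ V → ∀ j, lt u j → inUp N lt up j → j ∈ W
  host : V.card ≤ 2 → Hosts N lt rk t V

/-- Admissible lower cut. -/
structure LowOK (N : ℕ) (lt : ℕ → ℕ → Prop) (rk : ℕ → ℕ) (t : Fin 3 → Tm) (up : ℕ × ℕ)
    (W : Finset ℕ) (τ : ℕ → ℕ) (low : ℕ × ℕ) : Prop where
  l1 : low.1 ≤ N
  l2 : low.2 ≤ N
  e3 : ∀ w ∈ W, ¬ inLow lt low w
  e2 : ∀ j, j < N → inUp N lt up j → j ∉ W → ¬ NP N lt rk t j ∨
    ∃ m, (m = low.1 ∨ m = low.2) ∧ m ∈ W ∧ τ m = 1 ∧ lt j m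

/-- Feasible window. -/
def Feas (lt : ℕ → ℕ → Prop) (W V : Finset ℕ) : Prop :=
  ∃ k τ, Perf lt (W ∪ V) k τ ∧ ∀ u ∈ V, τ u = 1

/-- The conclusion of the induction. -/
def Res (N : ℕ) (lt : ℕ → ℕ → Prop) (rk : ℕ → ℕ) (t : Fin 3 → Tm) (up : ℕ × ℕ)
    (W V : Finset ℕ) : Prop :=
  ∃ k τ, Perf lt (W ∪ V) k τ ∧ (∀ u ∈ V, τ u = 1) ∧ ∀ low, LowOK N lt rk t up W τ low →
    Der N lt rk k (W ∪ V) ((W ∪ V).filter (fun j => τ j = 1))

variable {N : ℕ} {lt : ℕ → ℕ → Prop} {rk : ℕ → ℕ} {t : Fin 3 → Tm} {up low : ℕ × ℕ}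
  {W V : Finset ℕ} {τ : ℕ → ℕ} {k : ℕ}

theorem exists_triple (hN : ∀ u ∈ V, u < N) (hc : V.card ≤ 3) :
    ∃ v : Tm, v.1 ≤ N ∧ v.2.1 ≤ N ∧ v.2.2 ≤ N ∧
      ∀ j, j < N → (j ∈ V ↔ j = v.1 ∨ j = v.2.1 ∨ j = v.2.2) := by
  have h : V.card = 0 ∨ V.card = 1 ∨ V.card = 2 ∨ V.card = 3 := by omega
  rcases h with h | h | h | h
  · obtain rfl := Finset.card_eq_zero.1 h
    exact ⟨(N, N, N), le_rfl, le_rfl, le_rfl, fun j hj => by simp; omega⟩
  · obtain ⟨a, rfl⟩ := Finset.card_eq_one.1 h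
    have := hN a (by simp)
    exact ⟨(a, a, a), this.le, this.le, this.le, fun j hj => by simp⟩
  · obtain ⟨a, b, -, rfl⟩ := Finset.card_eq_two.1 h
    have ha := hN a (by simp)
    have hb := hN b (by simp)
    exact ⟨(a, b, b), ha.le, hb.le, hb.le, fun j hj => by simp⟩
  · obtain ⟨a, b, c, -, -, -, rfl⟩ := Finset.card_eq_three.1 h
    exact ⟨(a, b, c), (hN a (by simp)).le, (hN b (by simp)).le, (hN c (by simp)).le,
      fun j hj => by simp⟩

theorem Inv.fam (hi : Inv N lt rk t up W V) (hl : LowOK N lt rk t up W τ low) (hc : V.card ≤ 3) :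
    Fam N lt rk (W ∪ V) := by
  obtain ⟨v, h1, h2, h3, hv⟩ := exists_triple hi.vN hc
  refine ⟨up, low, t, v, hi.up1, hi.up2, hl.l1, hl.l2, hi.str.bdd, h1, h2, h3, fun j hj => ?_⟩
  rw [Finset.mem_union, hv j hj]
  refine or_congr ⟨fun h => ⟨hi.wup j h, hl.e3 j h, hi.np j h⟩, fun ⟨h4, h5, h6⟩ => ?_⟩ Iff.rfl
  by_contra h
  rcases hl.e2 j hj h4 h with h7 | ⟨m, hm, -, -, h7⟩
  · exact h7 h6
  · rcases hm with rfl | rfl
    · exact h5 (Or.inl h7)
    · exact h5 (Or.inr h7)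

theorem Perf.card_first {X : Finset ℕ} (h : Perf lt X k τ) (hne : X.Nonempty) :
    (X.filter (fun j => τ j = 1)).card = 3 := by
  obtain ⟨x, hx⟩ := hne
  have := h.rng x hx
  exact h.full 1 le_rfl (by omega)

theorem inUp_down (ho : Ord N lt rk) {j m : ℕ} (h : lt j m) (hm : inUp N lt up m) :
    inUp N lt up j := by
  rcases hm with h1 | h1 | h1
  · exact Or.inl h1
  · exact Or.inr (Or.inl (ho.trans _ _ _ h h1))
  · exact Or.inr (Or.inr (ho.trans _ _ _ h h1))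

/-- The first slot is complete. -/
theorem step_full (hi : Inv N lt rk t up W V) (hc : V.card = 3) (hf : Feas lt W V)
    (ih : W.Nonempty → Inv N lt rk t up W ∅ → Feas lt W ∅ → Res N lt rk t up W ∅) :
    Res N lt rk t up W V := by
  obtain ⟨k, τ, hp, hV⟩ := hf
  have hne : (W ∪ V).Nonempty :=
    (Finset.card_pos.1 (by omega : 0 < V.card)).mono Finset.subset_union_right
  have hanti : ∀ u ∈ V, ∀ v ∈ V, ¬ lt u v := fun u hu v hv h => by
    have := hp.prec u (by simp [hu]) v (by simp [hv]) h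
    rw [hV u hu, hV v hv] at this; omega
  have hfirst : (W ∪ V).filter (fun j => τ j = 1) = V := by
    refine (Finset.eq_of_subset_of_card_le (fun u hu => ?_) (by rw [hp.card_first hne, hc])).symm
    simp [hu, hV u hu]
  rcases W.eq_empty_or_nonempty with rfl | hW
  · refine ⟨1, fun _ => 1, by simpa using Perf.single hc hanti, fun _ _ => rfl, fun low _ => ?_⟩
    simpa using Der.base V hi.vN hc hanti
  have hW2 : ∀ w ∈ W, 2 ≤ τ w := fun w hw => by
    have h1 := (hp.rng w (by simp [hw])).1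
    by_contra h
    have : w ∈ V := by rw [← hfirst]; simp [hw]; omega
    exact Finset.disjoint_left.1 hi.disj hw this
  have hk : 1 ≤ k := by
    obtain ⟨x, hx⟩ := hne
    have := hp.rng x hx
    omega
  have hsuf := hp.suf (s := 2) (by omega) (by omega)
  have e : (W ∪ V).filter (fun j => 2 ≤ τ j) = W ∪ ∅ := by
    ext j
    simp only [Finset.mem_filter, Finset.mem_union, Finset.notMem_empty, or_false]
    refine ⟨fun ⟨h1, h2⟩ => h1.resolve_right fun h => ?_, fun h => ⟨Or.inl h, hW2 j h⟩⟩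
    rw [hV j h] at h2; omega
  rw [e] at hsuf
  obtain ⟨k', τ', hp', -, hD⟩ := ih hW ⟨hi.str, hi.up1, hi.up2, hi.wN, by simp, by simp, hi.np,
    hi.wup, fun u hu => hi.clo u (Or.inl (by simpa using hu)),
    fun _ => ⟨fun _ => 0, by simp, by simp⟩⟩ ⟨_, _, hsuf, by simp⟩
  rw [Finset.union_empty] at hp' hD
  have hprec : ∀ u ∈ W, ∀ v ∈ V, ¬ lt u v := fun u hu v hv h => by
    have := hp.prec u (by simp [hu]) v (by simp [hv]) h
    have := hW2 u hu
    rw [hV v hv] at *; omega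
  have hcat := (Perf.single hc hanti).concat hp' hi.disj.symm hprec
  refine ⟨1 + k', _, by rw [Finset.union_comm]; exact hcat, fun u hu => by simp [hu],
    fun low hl => ?_⟩
  have hWτ : ∀ m ∈ W, (if m ∈ V then 1 else τ' m + 1) ≠ 1 := fun m hm => by
    have := (hp'.rng m hm).1
    rw [if_neg (Finset.disjoint_left.1 hi.disj hm)]; omega
  have e2 : (W ∪ V).filter (fun j => (if j ∈ V then 1 else τ' j + 1) = 1) = V := by
    ext j
    simp only [Finset.mem_filter, Finset.mem_union]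
    exact ⟨fun ⟨h1, h2⟩ => h1.resolve_left fun h => hWτ j h h2, fun h => ⟨Or.inr h, by simp [h]⟩⟩
  rw [e2]
  have hfam := hi.fam hl hc.le
  rw [Finset.union_comm] at hfam ⊢
  refine Der.cat (Der.base V hi.vN hc hanti) (hD low ⟨hl.l1, hl.l2, hl.e3, fun j h1 h2 h3 => ?_⟩)
    hi.disj.symm hprec hfam
  rcases hl.e2 j h1 h2 h3 with h | ⟨m, -, hm, h, -⟩
  · exact Or.inl h
  · exact absurd h (hWτ m hm)

end Crest.Agent.R286
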