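import Crest.Agent.R286.Build1

set_option autoImplicit false

namespace Crest.Agent.R286

variable {N : ℕ} {lt : ℕ → ℕ → Prop} {rk : ℕ → ℕ} {t t' : Fin 3 → Tm} {up low : ℕ × ℕ}
  {W V : Finset ℕ} {τ : ℕ → ℕ} {k v : ℕ}

/-- The output of the selection lemma. -/
structure Sel (N : ℕ) (lt : ℕ → ℕ → Prop) (rk : ℕ → ℕ) (t t' : Fin 3 → Tm) (W V : Finset ℕ)
    (v : ℕ) : Prop where
  mem : v ∈ W
  str : Str N lt t'
  src : ∀ u, u ∈ W ∨ u ∈ V → ¬ lt u v
  keep : ∀ w ∈ W, w ≠ v → NP N lt rk t' w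
  sub : ∀ j, NP N lt rk t' j → NP N lt rk t j ∨ ∃ u ∈ V, lt u j
  down : ∀ j, j = v ∨ lt j v → ¬ NP N lt rk t' j
  host : V.card ≤ 1 → Hosts N lt rk t' (insert v V)
  host1 : Hosts N lt rk t' {v}

theorem Sel.notNP (hi : Inv N lt rk t up W V) (hs : Sel N lt rk t t' W V v) {j : ℕ}
    (h1 : inUp N lt up j) (h2 : j ∉ W) (h3 : ¬ NP N lt rk t j) : ¬ NP N lt rk t' j := fun h => by
  rcases hs.sub j h with h | ⟨u, hu, h⟩
  · exact h3 h
  · exact h2 (hi.clo u (Or.inr hu) j h h1)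

/-- The selected job goes into the first slot. -/
theorem step_pick (hi : Inv N lt rk t up W V) (hs : Sel N lt rk t t' W V v)
    (hp : Perf lt (W ∪ V) k τ) (hV : ∀ u ∈ V, τ u = 1) (hv : τ v = 1)
    (ih : Inv N lt rk t' up (W.erase v) (insert v V) → Feas lt (W.erase v) (insert v V) →
      Res N lt rk t' up (W.erase v) (insert v V)) : Res N lt rk t up W V := by
  have hvV : v ∉ V := Finset.disjoint_left.1 hi.disj hs.mem
  have e : W.erase v ∪ insert v V = W ∪ V := by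
    ext j
    have := hs.mem
    by_cases h : j = v <;> simp [h, this]
  obtain ⟨k', τ', hp', hV', hD⟩ := ih ⟨hs.str, hi.up1, hi.up2,
    fun w hw => hi.wN w (Finset.mem_of_mem_erase hw),
    fun u hu => by
      rcases Finset.mem_insert.1 hu with rfl | hu
      · exact hi.wN _ hs.mem
      · exact hi.vN u hu,
    by
      rw [Finset.disjoint_insert_right]
      exact ⟨by simp, hi.disj.mono_left (Finset.erase_subset _ _)⟩,
    fun w hw => hs.keep w (Finset.mem_of_mem_erase hw) (Finset.ne_of_mem_erase hw),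
    fun w hw => hi.wup w (Finset.mem_of_mem_erase hw),
    fun u hu j h1 h2 => by
      have hu' : u ∈ W ∨ u ∈ V := by
        rw [← Finset.mem_union, ← e, Finset.mem_union]; exact hu
      refine Finset.mem_erase.2 ⟨?_, hi.clo u hu' j h1 h2⟩
      rintro rfl
      exact hs.src u hu' h1,
    fun hc => hs.host (by rw [Finset.card_insert_of_notMem hvV] at hc; omega)⟩
    ⟨k, τ, by rw [e]; exact hp, fun u hu => by
      rcases Finset.mem_insert.1 hu with rfl | hu
      · exact hv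
      · exact hV u hu⟩
  rw [e] at hp' hD
  refine ⟨k', τ', hp', fun u hu => hV' u (Finset.mem_insert_of_mem hu), fun low hl =>
    hD low ⟨hl.l1, hl.l2, fun w hw => hl.e3 w (Finset.mem_of_mem_erase hw), fun j h1 h2 h3 => ?_⟩⟩
  by_cases hj : j = v
  · exact Or.inl (hs.down j (Or.inl hj))
  have hjW : j ∉ W := fun h => h3 (Finset.mem_erase.2 ⟨hj, h⟩)
  rcases hl.e2 j h1 h2 hjW with h | ⟨m, hm, hmW, h4, h5⟩
  · exact Or.inl (hs.notNP hi h2 hjW h)
  · by_cases hmv : m = v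
    · exact Or.inl (hs.down j (Or.inr (hmv ▸ h5)))
    · exact Or.inr ⟨m, hm, Finset.mem_erase.2 ⟨hmv, hmW⟩, h4, h5⟩

/-- Swap lemma: if the slot of the source `v` is minimal, every earlier job outside `V` precedes
a job in the slot of `v`. -/
theorem swap_lemma (ho : Ord N lt rk) (hd : Disjoint W V) (hv : v ∈ W)
    (hsrc : ∀ u, u ∈ W ∨ u ∈ V → ¬ lt u v) (hp : Perf lt (W ∪ V) k τ) (hV : ∀ u ∈ V, τ u = 1)
    (hmin : ∀ k' τ', Perf lt (W ∪ V) k' τ' → (∀ u ∈ V, τ' u = 1) → τ v ≤ τ' v) :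
    ∀ b ∈ W, τ b < τ v → ∃ m ∈ W, τ m = τ v ∧ lt b m := by
  by_contra hcon
  push Not at hcon
  classical
  obtain ⟨b, hb, hmax⟩ := Finset.exists_max_image
    (W.filter (fun b => τ b < τ v ∧ ∀ m ∈ W, τ m = τ v → ¬ lt b m)) τ (by
      obtain ⟨b, h1, h2, h3⟩ := hcon
      exact ⟨b, Finset.mem_filter.2 ⟨h1, h2, h3⟩⟩)
  obtain ⟨hbW, hb1, hb2⟩ := Finset.mem_filter.1 hb
  have hbX : b ∈ W ∪ V := by simp [hbW]
  have hsw := hp.swap (v := v) (b := b) (by simp [hv]) hbX hb1
    (fun u hu => hsrc u (Finset.mem_union.1 hu)) (fun c hc hbc => by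
      have h1 := hp.prec b hbX c hc hbc
      have h2 := (hp.rng b hbX).1
      have hcW : c ∈ W := (Finset.mem_union.1 hc).resolve_right fun h => by
        rw [hV c h] at h1; omega
      by_contra h
      rcases (not_lt.1 h).lt_or_eq with h | h
      · have := hmax c (Finset.mem_filter.2 ⟨hcW, h, fun m hm h3 h4 =>
          hb2 m hm h3 (ho.trans _ _ _ hbc h4)⟩)
        omega
      · exact hb2 c hcW h hbc)
  have := hmin _ _ hsw (fun u hu => by
    have h1 : u ≠ v := fun h => Finset.disjoint_left.1 hd hv (h ▸ hu)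
    have h2 : u ≠ b := fun h => Finset.disjoint_left.1 hd hbW (h ▸ hu)
    simp [h1, h2, hV u hu])
  simp only [if_true] at this
  omega

end Crest.Agent.R286
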