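import Crest.Agent.R286.Build2

set_option autoImplicit false

namespace Crest.Agent.R286

variable {N : ℕ} {lt : ℕ → ℕ → Prop} {rk : ℕ → ℕ} {t t' : Fin 3 → Tm} {up low : ℕ × ℕ}
  {W V : Finset ℕ} {τ : ℕ → ℕ} {k v : ℕ}

/-- The selected job cannot go into the first slot: split at its earliest slot. -/
theorem step_split (ho : Ord N lt rk) (hi : Inv N lt rk t up W V) (hc : V.card ≤ 2)
    (hs : Sel N lt rk t t' W V v) (hp : Perf lt (W ∪ V) k τ) (hV : ∀ u ∈ V, τ u = 1)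
    (hv : 2 ≤ τ v)
    (hmin : ∀ k' τ', Perf lt (W ∪ V) k' τ' → (∀ u ∈ V, τ' u = 1) → τ v ≤ τ' v)
    (ih : ∀ t₁ up₁ W₁ V₁, W₁ ⊆ W.erase v → V₁.card ≤ 2 → Inv N lt rk t₁ up₁ W₁ V₁ →
      (W₁ ∪ V₁).Nonempty → Feas lt W₁ V₁ → Res N lt rk t₁ up₁ W₁ V₁) :
    Res N lt rk t up W V := by
  have hvW := hs.mem
  have hWV : ∀ w ∈ W, w ∉ V := fun w hw => Finset.disjoint_left.1 hi.disj hw
  obtain ⟨B, hB⟩ : ∃ B : Finset ℕ, ∀ j, j ∈ B ↔ j ∈ W ∧ τ j < τ v :=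
    ⟨W.filter (fun j => τ j < τ v), fun j => Finset.mem_filter⟩
  obtain ⟨Z, hZ⟩ : ∃ Z : Finset ℕ, ∀ j, j ∈ Z ↔ j ≠ v ∧ j ∈ W ∧ τ v ≤ τ j :=
    ⟨(W.filter (fun j => τ v ≤ τ j)).erase v, fun j => by simp⟩
  have hlo : ∀ j, j ∈ B ∪ V ↔ j ∈ W ∪ V ∧ τ j < τ v := fun j => by
    simp only [Finset.mem_union, hB]
    refine ⟨fun h => h.elim (fun h => ⟨Or.inl h.1, h.2⟩) fun h => ⟨Or.inr h, ?_⟩,
      fun ⟨h1, h2⟩ => h1.imp (fun h => ⟨h, h2⟩) id⟩
    rw [hV j h]; omega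
  have hhi : ∀ j, j ∈ Z ∪ {v} ↔ j ∈ W ∧ τ v ≤ τ j := fun j => by
    simp only [Finset.mem_union, hZ, Finset.mem_singleton]
    by_cases h : j = v <;> simp [h, hvW]
  have hk := (hp.rng v (by simp [hvW])).2
  have hpre := hp.pre (s := τ v) (by omega) (by omega)
  have hsuf := hp.suf (s := τ v) (by omega) (by omega)
  have e1 : (W ∪ V).filter (fun j => τ j < τ v) = B ∪ V := by
    ext j; rw [hlo, Finset.mem_filter]
  have e2 : (W ∪ V).filter (fun j => τ v ≤ τ j) = Z ∪ {v} := by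
    ext j
    rw [hhi, Finset.mem_filter, Finset.mem_union]
    refine and_congr_left fun h => ⟨fun h1 => h1.resolve_right fun h2 => ?_, Or.inl⟩
    rw [hV j h2] at h; omega
  rw [e1] at hpre
  rw [e2] at hsuf
  have hdis : Disjoint (B ∪ V) (Z ∪ {v}) := Finset.disjoint_left.2 fun j h1 h2 => by
    have := ((hlo j).1 h1).2
    have := ((hhi j).1 h2).2
    omega
  have hprec : ∀ u ∈ Z ∪ {v}, ∀ w ∈ B ∪ V, ¬ lt u w := fun u hu w hw h => by
    have h1 := (hhi u).1 hu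
    have h2 := (hlo w).1 hw
    have := hp.prec u (by simp [h1.1]) w h2.1 h
    omega
  have e3 : (B ∪ V) ∪ (Z ∪ {v}) = W ∪ V := by
    ext j
    rw [Finset.mem_union, hlo, hhi]
    refine ⟨fun h => h.elim (fun h => h.1) fun h => by simp [h.1], fun h => ?_⟩
    by_cases h1 : τ j < τ v
    · exact Or.inl ⟨h, h1⟩
    · refine Or.inr ⟨(Finset.mem_union.1 h).resolve_right fun h2 => ?_, by omega⟩
      rw [hV j h2] at h1; omega
  -- the suffix
  obtain ⟨k₂, τ₂, hp₂, hV₂, hD₂⟩ := ih t' up Z {v}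
    (fun j hj => Finset.mem_erase.2 ⟨((hZ j).1 hj).1, ((hZ j).1 hj).2.1⟩) (by simp)
    ⟨hs.str, hi.up1, hi.up2, fun w hw => hi.wN w ((hZ w).1 hw).2.1,
      fun u hu => by rw [Finset.mem_singleton.1 hu]; exact hi.wN v hvW,
      by simp [hZ], fun w hw => hs.keep w ((hZ w).1 hw).2.1 ((hZ w).1 hw).1,
      fun w hw => hi.wup w ((hZ w).1 hw).2.1,
      fun u hu j h1 h2 => by
        have h3 := (hhi u).1 (Finset.mem_union.2 hu)
        have h4 := hi.clo u (Or.inl h3.1) j h1 h2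
        have := hp.prec u (by simp [h3.1]) j (by simp [h4]) h1
        refine (hZ j).2 ⟨?_, h4, by omega⟩
        rintro rfl
        omega,
      fun _ => hs.host1⟩ (by simp) ⟨_, _, hsuf, fun u hu => by
        rw [Finset.mem_singleton.1 hu]; omega⟩
  have hv₂ : τ₂ v = 1 := hV₂ v (by simp)
  have hc2 : (((Z ∪ {v}).filter (fun j => τ₂ j = 1)).erase v).card = 2 := by
    rw [Finset.card_erase_of_mem (by simp [hv₂]), hp₂.card_first (by simp)]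
  obtain ⟨m₁, m₂, -, hm⟩ := Finset.card_eq_two.1 hc2
  have hM : ∀ m, (m = m₁ ∨ m = m₂) ↔ m ∈ Z ∧ τ₂ m = 1 := fun m => by
    have := Finset.ext_iff.1 hm m
    simp only [Finset.mem_erase, Finset.mem_filter, Finset.mem_union, Finset.mem_singleton,
      Finset.mem_insert] at this
    rw [← this]
    exact ⟨fun ⟨h1, h2, h3⟩ => ⟨h2.resolve_right h1, h3⟩,
      fun ⟨h1, h2⟩ => ⟨((hZ m).1 h1).1, Or.inl h1, h2⟩⟩
  have hLow : ∀ j, inLow lt (m₁, m₂) j ↔ ∃ m, (m = m₁ ∨ m = m₂) ∧ lt j m := fun j => by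
    simp [inLow]
  have hMW : ∀ m, (m = m₁ ∨ m = m₂) → m ∈ W := fun m h => ((hZ m).1 ((hM m).1 h).1).2.1
  have hm₁ : m₁ < N := hi.wN _ (hMW _ (Or.inl rfl))
  have hm₂ : m₂ < N := hi.wN _ (hMW _ (Or.inr rfl))
  have hUp : ∀ j, inUp N lt (m₁, m₂) j ↔ inLow lt (m₁, m₂) j := fun j => by
    simp [inUp, inLow, hm₁.ne]
  have hnot : ∀ j ∈ Z ∪ {v}, j ∉ B ∪ V := fun j h1 h2 => Finset.disjoint_left.1 hdis h2 h1
  have hE3 : ∀ w ∈ Z ∪ {v}, ¬ inLow lt (m₁, m₂) w := fun w hw h => by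
    obtain ⟨m, h1, h2⟩ := (hLow w).1 h
    have h3 := (hM m).1 h1
    have := hp₂.prec w hw m (by simp [h3.1]) h2
    have := (hp₂.rng w hw).1
    omega
  have hB' : ∀ w ∈ W, inLow lt (m₁, m₂) w → w ∈ B := fun w hw h => by
    by_contra h1
    refine hE3 w ((hhi w).2 ⟨hw, ?_⟩) h
    by_contra h2
    exact h1 ((hB w).2 ⟨hw, by omega⟩)
  have hBlow : ∀ b ∈ B, inLow lt (m₁, m₂) b := fun b hb => by
    have hσ := hpre.concat hp₂ hdis hprec
    rw [e3] at hσ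
    have hσv : (if v ∈ B ∪ V then τ v else τ₂ v + (τ v - 1)) = τ v := by
      rw [if_neg (hnot v (by simp)), hv₂]; omega
    obtain ⟨m, hmW, h1, h2⟩ := swap_lemma ho hi.disj hvW hs.src hσ
      (fun u hu => by simp [hu, hV u hu]) (fun k' τ' h1 h2 => by
        rw [hσv]; exact hmin k' τ' h1 h2) b ((hB b).1 hb).1 (by
        rw [hσv, if_pos (by simp [hb])]; exact ((hB b).1 hb).2)
    rw [hσv] at h1
    have h3 : m ∉ B ∪ V := fun h => by
      rw [if_pos h] at h1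
      have := ((hlo m).1 h).2
      omega
    rw [if_neg h3] at h1
    have h4 : m ∈ Z ∪ {v} := (Finset.mem_union.1 (by rw [e3]; simp [hmW])).resolve_left h3
    have h5 : m ≠ v := fun h => hs.src b (Or.inl ((hB b).1 hb).1) (h ▸ h2)
    exact (hLow b).2 ⟨m, (hM m).2 ⟨by simpa [h5] using h4, by omega⟩, h2⟩
  have hUpUp : ∀ j, inLow lt (m₁, m₂) j → inUp N lt up j := fun j h => by
    obtain ⟨m, h1, h2⟩ := (hLow j).1 h
    exact inUp_down ho h2 (hi.wup m (hMW m h1))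
  have hne : (B ∪ V).Nonempty := by
    have := hpre.full 1 le_rfl (by omega)
    exact (Finset.card_pos.1 (by omega)).mono (Finset.filter_subset (fun j => τ j = 1) _)
  -- the inner window
  obtain ⟨k₁, τ₁, hp₁, hV₁, hD₁⟩ := ih t (m₁, m₂) B V
    (fun j hj => Finset.mem_erase.2 ⟨fun h => by
      have := ((hB j).1 hj).2
      rw [h] at this; omega, ((hB j).1 hj).1⟩) hc
    ⟨hi.str, hm₁.le, hm₂.le, fun w hw => hi.wN w ((hB w).1 hw).1, hi.vN,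
      hi.disj.mono_left fun j hj => ((hB j).1 hj).1, fun w hw => hi.np w ((hB w).1 hw).1,
      fun w hw => (hUp w).2 (hBlow w hw),
      fun u hu j h1 h2 => hB' j (hi.clo u (hu.imp_left fun h => ((hB u).1 h).1) j h1
        (hUpUp j ((hUp j).1 h2))) ((hUp j).1 h2),
      hi.host⟩ hne ⟨_, _, hpre, hV⟩
  have hk₁ : 1 ≤ k₁ := by
    obtain ⟨x, hx⟩ := hne
    have := hp₁.rng x hx
    omega
  have hσ := hp₁.concat hp₂ hdis hprec
  rw [e3] at hσ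
  have hfirst : ∀ m ∈ W ∪ V, (if m ∈ B ∪ V then τ₁ m else τ₂ m + k₁) = 1 →
      m ∈ B ∪ V ∧ τ₁ m = 1 := fun m hm h => by
    by_cases h1 : m ∈ B ∪ V
    · exact ⟨h1, by rwa [if_pos h1] at h⟩
    · rw [if_neg h1] at h
      have := (hp₂.rng m ((Finset.mem_union.1 (by rw [e3]; exact hm)).resolve_left h1)).1
      omega
  refine ⟨k₁ + k₂, _, hσ, fun u hu => by simp [hu, hV₁ u hu], fun low hl => ?_⟩
  have e4 : (W ∪ V).filter (fun j => (if j ∈ B ∪ V then τ₁ j else τ₂ j + k₁) = 1) =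
      (B ∪ V).filter (fun j => τ₁ j = 1) := by
    ext j
    simp only [Finset.mem_filter]
    exact ⟨fun ⟨h1, h2⟩ => hfirst j h1 h2, fun ⟨h1, h2⟩ => ⟨((hlo j).1 h1).1, by
      rw [if_pos h1]; exact h2⟩⟩
  have hfam := hi.fam hl (by omega)
  rw [e4]
  rw [← e3] at hfam ⊢
  have halive : ∀ m ∈ W, (if m ∈ B ∪ V then τ₁ m else τ₂ m + k₁) = 1 → m ∈ B ∧ τ₁ m = 1 :=
    fun m hm h => by
      have := hfirst m (by simp [hm]) h
      exact ⟨(Finset.mem_union.1 this.1).resolve_right (hWV m hm), this.2⟩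
  refine Der.cat (hD₁ low ⟨hl.l1, hl.l2, fun w hw => hl.e3 w ((hB w).1 hw).1,
    fun j h1 h2 h3 => ?_⟩) (hD₂ (m₁, m₂) ⟨hm₁.le, hm₂.le, fun w hw => hE3 w (by simp [hw]),
    fun j h1 h2 h3 => ?_⟩) hdis hprec hfam
  · have h4 := (hUp j).1 h2
    rcases hl.e2 j h1 (hUpUp j h4) (fun h => h3 (hB' j h h4)) with h | ⟨m, h5, h6, h7, h8⟩
    · exact Or.inl h
    · exact Or.inr ⟨m, h5, (halive m h6 h7).1, (halive m h6 h7).2, h8⟩
  · have hlow : ∀ j, inLow lt (m₁, m₂) j →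
        ∃ m, (m = (m₁, m₂).1 ∨ m = (m₁, m₂).2) ∧ m ∈ Z ∧ τ₂ m = 1 ∧ lt j m := fun j h => by
      obtain ⟨m, h1, h2⟩ := (hLow j).1 h
      exact ⟨m, h1, ((hM m).1 h1).1, ((hM m).1 h1).2, h2⟩
    by_cases hj : j = v
    · exact Or.inl (hs.down j (Or.inl hj))
    by_cases hjW : j ∈ W
    · refine Or.inr (hlow j (hBlow j ((hB j).2 ⟨hjW, ?_⟩)))
      by_contra h
      exact h3 ((hZ j).2 ⟨hj, hjW, by omega⟩)
    rcases hl.e2 j h1 h2 hjW with h | ⟨m, -, h6, h7, h8⟩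
    · exact Or.inl (hs.notNP hi h2 hjW h)
    · obtain ⟨m', h9, h10⟩ := (hLow m).1 (hBlow m (halive m h6 h7).1)
      exact Or.inr (hlow j ((hLow j).2 ⟨m', h9, ho.trans _ _ _ h8 h10⟩))

end Crest.Agent.R286
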