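import Crest.Agent.R286.Build3

set_option autoImplicit false

namespace Crest.Agent.R286

variable {N : ℕ} {lt : ℕ → ℕ → Prop} {rk : ℕ → ℕ}

theorem build (ho : Ord N lt rk) (μ : ℕ) : ∀ (t : Fin 3 → Tm) (up : ℕ × ℕ) (W V : Finset ℕ),
    2 * W.card + (if V.card = 3 then 1 else 0) < μ → Inv N lt rk t up W V → (W ∪ V).Nonempty →
    Feas lt W V → Res N lt rk t up W V := by
  induction μ with
  | zero => intro t up W V h; omega
  | succ μ ih =>
    intro t up W V hμ hi hne hf
    by_cases hc : V.card = 3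
    · refine step_full hi hc hf fun h1 h2 h3 => ih t up W ∅ ?_ h2 (by simpa using h1) h3
      rw [if_pos hc] at hμ
      rw [if_neg (by simp)]; omega
    rw [if_neg hc] at hμ
    obtain ⟨k, τ, hp, hV⟩ := hf
    have hsub : V ⊆ (W ∪ V).filter (fun j => τ j = 1) := fun u hu => by simp [hu, hV u hu]
    have h3 := hp.card_first hne
    have hc2 : V.card ≤ 2 := by have := Finset.card_le_card hsub; omega
    obtain ⟨w, hw, hwV⟩ := Finset.exists_mem_notMem_of_card_lt_card
      (s := V) (t := (W ∪ V).filter (fun j => τ j = 1)) (by omega)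
    obtain ⟨hw1, hw2⟩ := Finset.mem_filter.1 hw
    obtain ⟨v, h1, t', h2, h4, h5, h6, h7, h8, h9⟩ := select ho hi.str W V hi.wN hi.vN hi.disj hc2
      hi.np (hi.host hc2) ⟨w, (Finset.mem_union.1 hw1).resolve_right hwV, fun u hu h => by
        have := hp.prec u (by simp [hu]) w hw1 h
        rw [hV u hu] at this; omega⟩
    have hs : Sel N lt rk t t' W V v := ⟨h1, h2, h4, h5, h6, h7, h8, h9⟩
    have hcard : (W.erase v).card + 1 = W.card := Finset.card_erase_add_one h1
    classical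
    have hex : ∃ s, ∃ k τ, Perf lt (W ∪ V) k τ ∧ (∀ u ∈ V, τ u = 1) ∧ τ v = s :=
      ⟨_, k, τ, hp, hV, rfl⟩
    obtain ⟨k', τ', hp', hV', hv'⟩ := Nat.find_spec hex
    have hpos := (hp'.rng v (by simp [h1])).1
    by_cases hs1 : τ' v = 1
    · refine step_pick hi hs hp' hV' hs1 fun a b => ih _ _ _ _ ?_ a (by simp) b
      split_ifs <;> omega
    · refine step_split ho hi hc2 hs hp' hV' (by omega) (fun k'' τ'' a b => ?_)
        fun t₁ up₁ W₁ V₁ a b c d e => ih _ _ _ _ ?_ c d e
      · rw [hv']; exact Nat.find_min' hex ⟨k'', τ'', a, b, rfl⟩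
      · have := Finset.card_le_card a
        rw [if_neg (by omega)]; omega

/-- A perfectly schedulable instance is found by the dynamic program. -/
theorem build_root (ho : Ord N lt rk) {T : ℕ} {τ : ℕ → ℕ} (hp : Perf lt (Finset.range N) T τ)
    (hN : 1 ≤ N) : ∃ k S, k ≤ N ∧ Der N lt rk k (Finset.range N) S := by
  obtain ⟨k, τ', hp', -, hD⟩ := build ho _ (fun _ => (N, N, 0)) (N, N) (Finset.range N) ∅
    (Nat.lt_succ_self _)
    ⟨⟨fun _ _ _ _ h => h, fun _ _ _ => le_rfl, fun _ => ⟨le_rfl, le_rfl, Nat.zero_le _⟩⟩,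
      le_rfl, le_rfl, fun w hw => Finset.mem_range.1 hw, by simp, by simp,
      fun w _ => ⟨0, Or.inl rfl, Nat.zero_le _⟩, fun w _ => Or.inl rfl,
      fun u _ j h _ => Finset.mem_range.2 (ho.dom u j h).2, fun _ => ⟨fun _ => 0, by simp, by simp⟩⟩
    ⟨0, by simp; omega⟩ ⟨T, τ, by simpa using hp, by simp⟩
  have := hD (N, N) ⟨le_rfl, le_rfl, fun w _ h => by
    rcases h with h | h <;> exact absurd (ho.dom _ _ h).2 (lt_irrefl _),
    fun j h1 _ h2 => absurd (Finset.mem_range.2 h1) h2⟩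
  have hc := hp'.card
  rw [Finset.union_empty] at this hc
  rw [Finset.card_range] at hc
  exact ⟨k, _, by omega, this⟩

end Crest.Agent.R286
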