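import Crest.Agent.R286.Defs

set_option autoImplicit false

namespace Crest.Agent.R286

theorem h14_der_pos {N : ℕ} {lt : ℕ → ℕ → Prop} {rk : ℕ → ℕ} {k : ℕ} {X S : Finset ℕ}
    (h : Der N lt rk k X S) : 1 ≤ k := by
  induction h with
  | base => exact le_rfl
  | cat _ _ _ _ _ ih _ => omega

theorem h14_mem_triples {r : List ℕ} {a b c : ℕ} (ha : a ∈ r) (hb : b ∈ r) (hc : c ∈ r) :
    (a, b, c) ∈ triples r :=
  List.pair_mem_product.2 ⟨ha, List.pair_mem_product.2 ⟨hb, hc⟩⟩

theorem h14_sub_cands {R : Rel} {js : List ℕ} {tab : List Sch}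
    (h : ∀ σ ∈ tab, ∀ j ∈ σ.flatten, j ∈ js) : ∀ σ ∈ cands R tab, ∀ j ∈ σ.flatten, j ∈ js := by
  intro σ hσ j hj
  obtain ⟨⟨a, b⟩, hp, rfl⟩ := List.mem_map.1 hσ
  obtain ⟨ha, hb⟩ := List.pair_mem_product.1 (List.mem_filter.1 hp).1
  rw [List.flatten_append, List.mem_append] at hj
  exact hj.elim (h a ha j) (h b hb j)

theorem h14_sub_foldl (R : Rel) (js : List ℕ) (ks : List Key) (l : List ℕ) :
    ∀ σ ∈ l.foldl (fun tab _ => round R js ks tab) [], ∀ j ∈ σ.flatten, j ∈ js := by
  induction l using List.reverseRecOn with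
  | nil => simp
  | append_singleton l x ih =>
    rw [List.foldl_append, List.foldl_cons, List.foldl_nil]
    intro σ hσ j hj
    rcases List.mem_append.1 hσ with h | h
    · obtain ⟨⟨a, b, c⟩, hp, rfl⟩ := List.mem_map.1 h
      obtain ⟨ha, hbc⟩ := List.pair_mem_product.1 (List.mem_filter.1 hp).1
      obtain ⟨hb, hc⟩ := List.pair_mem_product.1 hbc
      simp only [List.flatten_cons, List.flatten_nil, List.append_nil, List.mem_cons,
        List.not_mem_nil, or_false] at hj
      rcases hj with rfl | rfl | rfl <;> assumption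
    · obtain ⟨c, -, hc⟩ := List.mem_filterMap.1 h
      exact h14_sub_cands ih σ (List.mem_of_find?_eq_some hc) j hj

/-- After at least `k` rounds the table holds a schedule for every derivable key. -/
theorem der_mem_foldl (R : Rel) (N : ℕ) (l : List ℕ) {k : ℕ} {X S : Finset ℕ}
    (h : Der N (fun u v => ltB R u v = true) (rkB R (List.range N)) k X S) (hk : k ≤ l.length) :
    ∃ σ ∈ l.foldl (fun tab _ => round R (List.range N) (keys (List.range (N + 1))) tab) [],
      σ.flatten.toFinset = X ∧ ∃ a b c, a < N ∧ b < N ∧ c < N ∧ σ.headD [] = [a, b, c] ∧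
        S = {a, b, c} ∧ ∀ j ∈ σ.flatten, j < N := by
  induction l using List.reverseRecOn generalizing k X S with
  | nil => have := h14_der_pos h; simp at hk; omega
  | append_singleton l x ih =>
    rw [List.foldl_append, List.foldl_cons, List.foldl_nil]
    have hsub := h14_sub_foldl R (List.range N) (keys (List.range (N + 1))) l
    generalize l.foldl (fun tab _ => round R (List.range N) (keys (List.range (N + 1))) tab) [] =
      tab at ih hsub ⊢
    rw [List.length_append, List.length_singleton] at hk
    cases h with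
    | base S hN hc hlt =>
      obtain ⟨a, b, c, hab, hac, hbc, rfl⟩ := Finset.card_eq_three.1 hc
      have ha : a < N := hN a (by simp)
      have hb : b < N := hN b (by simp)
      have hc' : c < N := hN c (by simp)
      refine ⟨[[a, b, c]], List.mem_append_left _ ?_, by simp, a, b, c, ha, hb, hc', rfl, rfl, ?_⟩
      · refine List.mem_map.2 ⟨(a, b, c), List.mem_filter.2 ⟨?_, ?_⟩, rfl⟩
        · exact h14_mem_triples (List.mem_range.2 ha) (List.mem_range.2 hb) (List.mem_range.2 hc')
        · have : okSlot R [a, b, c] = true := by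
            unfold okSlot
            rw [List.all_eq_true]
            intro u hu
            rw [List.all_eq_true]
            intro v hv
            have := hlt u (by simpa using hu) v (by simpa using hv)
            simpa using this
          simp [hab, hac, hbc, this]
      · intro j hj
        exact hN j (by simpa using hj)
    | @cat k₁ k₂ X₁ X₂ S₁ S₂ h₁ h₂ hd hlt hF =>
      have p₁ := h14_der_pos h₁
      have p₂ := h14_der_pos h₂
      obtain ⟨σ₁, m₁, e₁, a, b, c, ha, hb, hc, hh, hS, s₁⟩ := ih h₁ (by omega)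
      obtain ⟨σ₂, m₂, e₂, -, -, -, -, -, -, -, -, s₂⟩ := ih h₂ (by omega)
      obtain ⟨up, low, t, v, u1, u2, l1, l2, ht, v1, v2, v3, hX⟩ := hF
      have hr : ∀ {n : ℕ}, n ≤ N → n ∈ List.range (N + 1) := fun h =>
        List.mem_range.2 (Nat.lt_succ_of_le h)
      obtain ⟨κ, hκ⟩ : ∃ κ : Key, κ = (up, low, t 0, t 1, t 2, v, (a, b, c)) := ⟨_, rfl⟩
      have hκm : κ ∈ keys (List.range (N + 1)) := by
        rw [hκ]
        exact List.pair_mem_product.2 ⟨List.pair_mem_product.2 ⟨hr u1, hr u2⟩,
          List.pair_mem_product.2 ⟨List.pair_mem_product.2 ⟨hr l1, hr l2⟩,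
          List.pair_mem_product.2 ⟨h14_mem_triples (hr (ht 0).1) (hr (ht 0).2.1) (hr (ht 0).2.2),
          List.pair_mem_product.2 ⟨h14_mem_triples (hr (ht 1).1) (hr (ht 1).2.1) (hr (ht 1).2.2),
          List.pair_mem_product.2 ⟨h14_mem_triples (hr (ht 2).1) (hr (ht 2).2.1) (hr (ht 2).2.2),
          List.pair_mem_product.2 ⟨h14_mem_triples (hr v1) (hr v2) (hr v3),
            h14_mem_triples (hr ha.le) (hr hb.le) (hr hc.le)⟩⟩⟩⟩⟩⟩
      have hmem : ∀ j, j < N → (memX R (List.range N) κ j = true ↔ j ∈ X₁ ∪ X₂) := by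
        intro j hj
        rw [hX j hj, hκ]
        simp only [memX, inTB, inUp, inLow, NP, inT, inU, Fin.exists_fin_succ, Bool.or_eq_true,
          Bool.and_eq_true, beq_iff_eq, List.length_range, Bool.not_eq_true', decide_eq_false_iff_not,
          not_lt, Bool.or_eq_false_iff, IsEmpty.exists_iff, or_false, not_or, Bool.not_eq_true,
          Fin.succ_zero_eq_one, Fin.succ_one_eq_two, or_assoc, and_assoc]
      have hmatch : ∀ σ : Sch, matchK R (List.range N) κ σ = true ↔
          (∀ j, j < N → (j ∈ σ.flatten ↔ j ∈ X₁ ∪ X₂)) ∧ σ.headD [] = [a, b, c] := by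
        intro σ
        unfold matchK
        rw [Bool.and_eq_true, List.all_eq_true, beq_iff_eq]
        refine and_congr (forall_congr' fun j => ?_) (by rw [hκ])
        rw [List.mem_range]
        refine imp_congr_right fun hj => ?_
        rw [← hmem j hj, beq_iff_eq, ← List.contains_iff_mem, Bool.eq_iff_iff]
      have hcand : σ₁ ++ σ₂ ∈ cands R tab := by
        refine List.mem_map.2 ⟨(σ₁, σ₂), List.mem_filter.2 ⟨List.pair_mem_product.2 ⟨m₁, m₂⟩, ?_⟩, rfl⟩
        unfold compat
        rw [List.all_eq_true]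
        intro u hu
        rw [List.all_eq_true]
        intro w hw
        have hu' : u ∈ X₂ := by rw [← e₂]; exact List.mem_toFinset.2 hu
        have hw' : w ∈ X₁ := by rw [← e₁]; exact List.mem_toFinset.2 hw
        have h1 : u ≠ w := by
          rintro rfl
          exact Finset.disjoint_left.1 hd hw' hu'
        have h2 := hlt u hu' w hw'
        simpa [h1] using h2
      have hm12 : matchK R (List.range N) κ (σ₁ ++ σ₂) = true := by
        refine (hmatch _).2 ⟨fun j _ => ?_, ?_⟩
        · rw [List.flatten_append, List.mem_append, Finset.mem_union, ← e₁, ← e₂,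
            List.mem_toFinset, List.mem_toFinset]
        · cases σ₁ with
          | nil => simp at hh
          | cons s σ₁ => simpa using hh
      have hsome : ((cands R tab).find? (fun σ => matchK R (List.range N) κ σ)).isSome = true :=
        List.find?_isSome.2 ⟨_, hcand, hm12⟩
      obtain ⟨σ, hσ⟩ := Option.isSome_iff_exists.1 hsome
      have hσm := List.mem_of_find?_eq_some hσ
      obtain ⟨hσ1, hσ2⟩ := (hmatch σ).1 (List.find?_some hσ)
      have hσs : ∀ j ∈ σ.flatten, j < N := fun j hj =>
        List.mem_range.1 (h14_sub_cands hsub σ hσm j hj)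
      refine ⟨σ, List.mem_append_right _ (List.mem_filterMap.2 ⟨κ, hκm, hσ⟩), ?_, a, b, c, ha, hb,
        hc, hσ2, hS, hσs⟩
      ext j
      rw [List.mem_toFinset]
      refine ⟨fun hj => (hσ1 j (hσs j hj)).1 hj, fun hj => (hσ1 j ?_).2 hj⟩
      rcases Finset.mem_union.1 hj with h | h
      · rw [← e₁] at h; exact s₁ j (List.mem_toFinset.1 h)
      · rw [← e₂] at h; exact s₂ j (List.mem_toFinset.1 h)

theorem solve_isSome (R : Rel) (N : ℕ) {k : ℕ} {S : Finset ℕ}
    (h : Der N (fun u v => ltB R u v = true) (rkB R (List.range N)) k (Finset.range N) S)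
    (hk : k ≤ N) : (solve R (List.range N)).isSome = true := by
  obtain ⟨σ, hσ, he, -⟩ := der_mem_foldl R N (List.range N) h (by simpa using hk)
  unfold solve table
  rw [List.length_range, ← List.range_succ]
  refine List.find?_isSome.2 ⟨σ, hσ, ?_⟩
  rw [List.all_eq_true]
  intro j hj
  rw [List.contains_iff_mem, ← List.mem_toFinset, he]
  exact Finset.mem_range.2 (List.mem_range.1 hj)

end Crest.Agent.R286
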