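import Mathlib
import Crest.Prelude.Def_Sched3

/-!
Row 286 (three machines, unit jobs, precedence constraints): definitions.

Part 1: the combinatorial layer (jobs are the naturals below `N`).
Part 2: the program, a pure function on lists.
-/

set_option autoImplicit false

namespace Crest.Agent.R286

/-! ### combinatorial layer -/

/-- A strict order on the jobs `< N` with a linear extension `rk`. -/
structure Ord (N : ℕ) (lt : ℕ → ℕ → Prop) (rk : ℕ → ℕ) : Prop where
  trans : ∀ u v w, lt u v → lt v w → lt u w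
  dom : ∀ u v, lt u v → u < N ∧ v < N
  mono : ∀ u v, lt u v → rk u < rk v
  inj : ∀ u v, u < N → v < N → rk u = rk v → u = v
  bdd : ∀ u, u < N → rk u < N

/-- `τ` is a perfect schedule of `X` with `k` slots: every slot holds exactly three jobs. -/
structure Perf (lt : ℕ → ℕ → Prop) (X : Finset ℕ) (k : ℕ) (τ : ℕ → ℕ) : Prop where
  rng : ∀ j ∈ X, 1 ≤ τ j ∧ τ j ≤ k
  full : ∀ t, 1 ≤ t → t ≤ k → (X.filter (fun j => τ j = t)).card = 3
  prec : ∀ u ∈ X, ∀ v ∈ X, lt u v → τ u < τ v

/-- A term: two jobs (or `N`) and a rank threshold. -/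
abbrev Tm := ℕ × ℕ × ℕ

/-- The up-set of a term: everything, or the successors of at most two jobs. -/
def inU (N : ℕ) (lt : ℕ → ℕ → Prop) (t : Tm) (j : ℕ) : Prop := t.1 = N ∨ lt t.1 j ∨ lt t.2.1 j

/-- Membership in a term. -/
def inT (N : ℕ) (lt : ℕ → ℕ → Prop) (rk : ℕ → ℕ) (t : Tm) (j : ℕ) : Prop :=
  inU N lt t j ∧ t.2.2 ≤ rk j

/-- Everything, or the predecessors of at most two jobs. -/
def inUp (N : ℕ) (lt : ℕ → ℕ → Prop) (p : ℕ × ℕ) (j : ℕ) : Prop := p.1 = N ∨ lt j p.1 ∨ lt j p.2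

/-- The predecessors of at most two jobs. -/
def inLow (lt : ℕ → ℕ → Prop) (p : ℕ × ℕ) (j : ℕ) : Prop := lt j p.1 ∨ lt j p.2

/-- The union of the three terms. -/
def NP (N : ℕ) (lt : ℕ → ℕ → Prop) (rk : ℕ → ℕ) (t : Fin 3 → Tm) (j : ℕ) : Prop :=
  ∃ l, inT N lt rk (t l) j

/-- Nested up-sets, increasing thresholds, parameters at most `N`. -/
structure Str (N : ℕ) (lt : ℕ → ℕ → Prop) (t : Fin 3 → Tm) : Prop where
  nest : ∀ l l', l ≤ l' → ∀ j, inU N lt (t l) j → inU N lt (t l') j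
  mono : ∀ l l', l ≤ l' → (t l).2.2 ≤ (t l').2.2
  bdd : ∀ l, (t l).1 ≤ N ∧ (t l).2.1 ≤ N ∧ (t l).2.2 ≤ N

/-- The jobs of `V` have distinct host terms containing all their successors. -/
def Hosts (N : ℕ) (lt : ℕ → ℕ → Prop) (rk : ℕ → ℕ) (t : Fin 3 → Tm) (V : Finset ℕ) : Prop :=
  ∃ k : ℕ → Fin 3, Set.InjOn k (V : Set ℕ) ∧ ∀ u ∈ V, ∀ j, lt u j → inT N lt rk (t (k u)) j

/-- The polynomial family of job sets: a described set together with at most three jobs. -/
def Fam (N : ℕ) (lt : ℕ → ℕ → Prop) (rk : ℕ → ℕ) (X : Finset ℕ) : Prop :=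
  ∃ (up low : ℕ × ℕ) (t : Fin 3 → Tm) (v : Tm),
    up.1 ≤ N ∧ up.2 ≤ N ∧ low.1 ≤ N ∧ low.2 ≤ N ∧
    (∀ l, (t l).1 ≤ N ∧ (t l).2.1 ≤ N ∧ (t l).2.2 ≤ N) ∧ v.1 ≤ N ∧ v.2.1 ≤ N ∧ v.2.2 ≤ N ∧
    ∀ j, j < N → (j ∈ X ↔
      (inUp N lt up j ∧ ¬ inLow lt low j ∧ NP N lt rk t j) ∨ j = v.1 ∨ j = v.2.1 ∨ j = v.2.2)

/-- `Der k X S`: the dynamic program finds a perfect schedule of `X` with `k` slots and first
slot `S`. -/
inductive Der (N : ℕ) (lt : ℕ → ℕ → Prop) (rk : ℕ → ℕ) : ℕ → Finset ℕ → Finset ℕ → Prop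
  | base (S : Finset ℕ) : (∀ j ∈ S, j < N) → S.card = 3 → (∀ u ∈ S, ∀ v ∈ S, ¬ lt u v) →
      Der N lt rk 1 S S
  | cat {k₁ k₂ : ℕ} {X₁ X₂ S₁ S₂ : Finset ℕ} : Der N lt rk k₁ X₁ S₁ → Der N lt rk k₂ X₂ S₂ →
      Disjoint X₁ X₂ → (∀ u ∈ X₂, ∀ v ∈ X₁, ¬ lt u v) → Fam N lt rk (X₁ ∪ X₂) →
      Der N lt rk (k₁ + k₂) (X₁ ∪ X₂) S₁

/-! ### the program -/

/-- A relation as a list of pairs. -/
abbrev Rel := List (ℕ × ℕ)
/-- A schedule as its list of slots. -/
abbrev Sch := List (List ℕ)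
/-- `up`, `low`, three terms, the extra jobs and the first slot. -/
abbrev Key := (ℕ × ℕ) × (ℕ × ℕ) × Tm × Tm × Tm × Tm × Tm

def ltB (R : Rel) (u v : ℕ) : Bool := R.contains (u, v)

def wStep (js : List ℕ) (R : Rel) (k : ℕ) : Rel :=
  (js.product js).filter (fun p => ltB R p.1 p.2 || (ltB R p.1 k && ltB R k p.2))

/-- Transitive closure. -/
def warshall (js : List ℕ) (E : Rel) : Rel := js.foldl (wStep js) E

def pc (R : Rel) (js : List ℕ) (v : ℕ) : ℕ := (js.filter (fun u => ltB R u v)).length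

def keyLt (R : Rel) (js : List ℕ) (u v : ℕ) : Bool :=
  decide (pc R js u < pc R js v) || (pc R js u == pc R js v && decide (u < v))

def rkB (R : Rel) (js : List ℕ) (v : ℕ) : ℕ := (js.filter (fun u => keyLt R js u v)).length

def inTB (R : Rel) (js : List ℕ) (t : Tm) (j : ℕ) : Bool :=
  (t.1 == js.length || ltB R t.1 j || ltB R t.2.1 j) && !decide (rkB R js j < t.2.2)

def memX (R : Rel) (js : List ℕ) (c : Key) (j : ℕ) : Bool :=
  ((c.1.1 == js.length || ltB R j c.1.1 || ltB R j c.1.2) &&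
    !(ltB R j c.2.1.1 || ltB R j c.2.1.2) &&
    (inTB R js c.2.2.1 j || inTB R js c.2.2.2.1 j || inTB R js c.2.2.2.2.1 j)) ||
  j == c.2.2.2.2.2.1.1 || j == c.2.2.2.2.2.1.2.1 || j == c.2.2.2.2.2.1.2.2

def triples (r : List ℕ) : List Tm := r.product (r.product r)

def keys (r : List ℕ) : List Key :=
  (r.product r).product ((r.product r).product ((triples r).product ((triples r).product
    ((triples r).product ((triples r).product (triples r))))))

def okSlot (R : Rel) (s : List ℕ) : Bool := s.all (fun u => s.all (fun v => !ltB R u v))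

def base (R : Rel) (js : List ℕ) : List Sch :=
  ((triples js).filter (fun s => s.1 != s.2.1 && s.1 != s.2.2 && s.2.1 != s.2.2 &&
    okSlot R [s.1, s.2.1, s.2.2])).map (fun s => [[s.1, s.2.1, s.2.2]])

def compat (R : Rel) (a b : Sch) : Bool :=
  b.flatten.all (fun u => a.flatten.all (fun v => u != v && !ltB R u v))

def cands (R : Rel) (tab : List Sch) : List Sch :=
  ((tab.product tab).filter (fun p => compat R p.1 p.2)).map (fun p => p.1 ++ p.2)

def matchK (R : Rel) (js : List ℕ) (c : Key) (σ : Sch) : Bool :=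
  js.all (fun j => σ.flatten.contains j == memX R js c j) &&
    σ.headD [] == [c.2.2.2.2.2.2.1, c.2.2.2.2.2.2.2.1, c.2.2.2.2.2.2.2.2]

def pickAll (R : Rel) (js : List ℕ) (ks : List Key) (cs : List Sch) : List Sch :=
  ks.filterMap (fun c => cs.find? (fun σ => matchK R js c σ))

def round (R : Rel) (js : List ℕ) (ks : List Key) (tab : List Sch) : List Sch :=
  base R js ++ pickAll R js ks (cands R tab)

def table (R : Rel) (js : List ℕ) (ks : List Key) : List Sch :=
  js.foldl (fun tab _ => round R js ks tab) []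

def solve (R : Rel) (js : List ℕ) : Option Sch :=
  (table R js (keys (js ++ [js.length]))).find? (fun σ => js.all (fun j => σ.flatten.contains j))

def slot (σ : Sch) (j : ℕ) : ℕ := σ.findIdx (fun s => s.contains j) + 1

/-- Try `N = n, n + 1, …, 3 n` jobs (the extra ones are isolated dummies). -/
def best (R : Rel) (n : ℕ) (big : List ℕ) : Sch :=
  (big.findSome? (fun N => if N < n then none else solve R (big.filter (fun j => decide (j < N))))).getD []

def parseN (x : List Bool) : ℕ :=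
  ((List.range (false :: x).length).find?
    (fun m => (x.zip (Crest.Enc.natCode m)).map Prod.fst == Crest.Enc.natCode m)).getD 0

def parseJ (x : List Bool) : List ℕ :=
  (List.range (false :: x).length).filter (fun j => decide (j < parseN x))

def parseE (x : List Bool) : Rel :=
  ((((parseJ x).product (parseJ x)).zip
    ((Crest.Enc.natCode (parseN x)).foldl (fun y _ => y.tail) x)).filter (fun p => p.2)).map
      (fun p => p.1)

def finish (jn : List ℕ) (σ : Sch) : List Bool := Crest.Enc.listCode (jn.map (fun j => slot σ j))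

def core (jn : List ℕ) (R : Rel) (big : List ℕ) : List Bool := finish jn (best R jn.length big)

/-- The whole program. -/
def prog (x : List Bool) : List Bool :=
  core (parseJ x) (warshall (parseJ x) (parseE x))
    (List.range (0 :: (parseJ x ++ parseJ x ++ parseJ x)).length)

/-- Soundness invariant of table entries. -/
structure Good (R : Rel) (js : List ℕ) (σ : Sch) : Prop where
  len : ∀ s ∈ σ, s.length = 3
  nodup : σ.flatten.Nodup
  sub : ∀ j ∈ σ.flatten, j ∈ js
  prec : ∀ u ∈ σ.flatten, ∀ v ∈ σ.flatten, ltB R u v = true → slot σ u < slot σ v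

end Crest.Agent.R286
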