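import Crest.Agent.R286.Defs

set_option autoImplicit false

namespace Crest.Agent.R286

theorem h93_ltB_wStep (js : List ℕ) (R : Rel) (k u v : ℕ) :
    ltB (wStep js R k) u v = true ↔ u ∈ js ∧ v ∈ js ∧
      (ltB R u v = true ∨ (ltB R u k = true ∧ ltB R k v = true)) := by
  have h : ltB (wStep js R k) u v = true ↔ (u, v) ∈ wStep js R k := by
    unfold ltB; simp
  rw [h]
  unfold wStep
  rw [List.mem_filter]
  have h2 : (u, v) ∈ js.product js ↔ u ∈ js ∧ v ∈ js := List.pair_mem_product
  rw [h2]
  simp only [Bool.or_eq_true, Bool.and_eq_true]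
  exact and_assoc

theorem h93_inv (n : ℕ) (E : Rel) (hE : ∀ u v, ltB E u v = true → u < n ∧ v < n) (k : ℕ) :
    (∀ u v, ltB ((List.range k).foldl (wStep (List.range n)) E) u v = true →
      (u < n ∧ v < n) ∧ Relation.TransGen (fun a b => ltB E a b = true) u v) ∧
    (∀ u v, ltB E u v = true → ltB ((List.range k).foldl (wStep (List.range n)) E) u v = true) ∧
    (∀ u v w, w < k → ltB ((List.range k).foldl (wStep (List.range n)) E) u w = true →
      ltB ((List.range k).foldl (wStep (List.range n)) E) w v = true →
      ltB ((List.range k).foldl (wStep (List.range n)) E) u v = true) := by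
  induction k with
  | zero =>
    refine ⟨fun u v h => ⟨hE u v h, Relation.TransGen.single h⟩, fun u v h => h, ?_⟩
    intro u v w hw
    exact absurd hw (Nat.not_lt_zero _)
  | succ k ih =>
    obtain ⟨i1, i2, i3⟩ := ih
    rw [List.range_succ, List.foldl_append]
    simp only [List.foldl_cons, List.foldl_nil, h93_ltB_wStep, List.mem_range]
    generalize (List.range k).foldl (wStep (List.range n)) E = R at i1 i2 i3 ⊢
    refine ⟨?_, ?_, ?_⟩
    · rintro u v ⟨hu, hv, h | ⟨h1, h2⟩⟩
      · exact ⟨⟨hu, hv⟩, (i1 u v h).2⟩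
      · exact ⟨⟨hu, hv⟩, (i1 _ _ h1).2.trans (i1 _ _ h2).2⟩
    · intro u v h
      exact ⟨(hE u v h).1, (hE u v h).2, Or.inl (i2 u v h)⟩
    · rintro u v w hw ⟨hu, -, h1⟩ ⟨-, hv, h2⟩
      refine ⟨hu, hv, ?_⟩
      rcases Nat.lt_succ_iff_lt_or_eq.1 hw with hw | rfl
      · rcases h1 with h1 | ⟨h1, h1'⟩
        · rcases h2 with h2 | ⟨h2, h2'⟩
          · exact Or.inl (i3 u v w hw h1 h2)
          · exact Or.inr ⟨i3 u k w hw h1 h2, h2'⟩
        · rcases h2 with h2 | ⟨h2, h2'⟩
          · exact Or.inr ⟨h1, i3 k v w hw h1' h2⟩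
          · exact Or.inr ⟨h1, h2'⟩
      · refine Or.inr ⟨?_, ?_⟩
        · rcases h1 with h1 | ⟨h1, -⟩ <;> exact h1
        · rcases h2 with h2 | ⟨-, h2⟩ <;> exact h2

theorem h93_filter_le (l : List ℕ) {p q : ℕ → Bool} (h : ∀ x, p x = true → q x = true) :
    (l.filter p).length ≤ (l.filter q).length := by
  induction l with
  | nil => simp
  | cons a l ih =>
    rw [List.filter_cons, List.filter_cons]
    by_cases hp : p a = true
    · rw [if_pos hp, if_pos (h a hp)]; simpa using ih
    · rw [if_neg hp]
      split_ifs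
      · simp only [List.length_cons]; omega
      · exact ih

theorem h93_filter_lt (l : List ℕ) {p q : ℕ → Bool} (h : ∀ x, p x = true → q x = true) {y : ℕ}
    (hy : y ∈ l) (h1 : q y = true) (h2 : p y = false) :
    (l.filter p).length < (l.filter q).length := by
  induction l with
  | nil => simp at hy
  | cons a l ih =>
    rw [List.filter_cons, List.filter_cons]
    rcases List.mem_cons.1 hy with rfl | hy
    · rw [if_neg (by simp [h2]), if_pos h1]
      have := h93_filter_le l h
      simp only [List.length_cons]; omega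
    · have := ih hy
      by_cases hp : p a = true
      · rw [if_pos hp, if_pos (h a hp)]; simpa using this
      · rw [if_neg hp]
        split_ifs
        · simp only [List.length_cons]; omega
        · exact this

theorem h93_keyLt (R : Rel) (js : List ℕ) (u v : ℕ) : keyLt R js u v = true ↔
    pc R js u < pc R js v ∨ (pc R js u = pc R js v ∧ u < v) := by
  unfold keyLt
  simp

theorem h93_rk_lt (R : Rel) (N : ℕ) {u v : ℕ} (hu : u < N)
    (h : keyLt R (List.range N) u v = true) : rkB R (List.range N) u < rkB R (List.range N) v := by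
  unfold rkB
  refine h93_filter_lt _ ?_ (List.mem_range.2 hu) h ?_
  · intro x hx
    rw [h93_keyLt] at hx h ⊢
    omega
  · rw [← Bool.not_eq_true, h93_keyLt]
    omega

/-- Warshall's algorithm computes the transitive closure. -/
theorem ltB_warshall (n : ℕ) (E : Rel) (hE : ∀ u v, ltB E u v = true → u < n ∧ v < n) (u v : ℕ) :
    ltB (warshall (List.range n) E) u v = true ↔
      Relation.TransGen (fun a b => ltB E a b = true) u v := by
  obtain ⟨i1, i2, i3⟩ := h93_inv n E hE n
  unfold warshall
  constructor
  · intro h; exact (i1 u v h).2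
  · intro h
    induction h with
    | single h => exact i2 _ _ h
    | tail _ h ih => exact i3 _ _ _ (hE _ _ h).1 ih (i2 _ _ h)

/-- The computed rank is a linear extension. -/
theorem ord_rkB (R : Rel) (N : ℕ) (hdom : ∀ u v, ltB R u v = true → u < N ∧ v < N)
    (htr : ∀ u v w, ltB R u v = true → ltB R v w = true → ltB R u w = true)
    (hirr : ∀ u, ltB R u u = false) :
    Ord N (fun u v => ltB R u v = true) (rkB R (List.range N)) := by
  refine ⟨htr, hdom, ?_, ?_, ?_⟩
  · intro u v h
    refine h93_rk_lt R N (hdom u v h).1 ?_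
    rw [h93_keyLt]
    left
    unfold pc
    exact h93_filter_lt _ (fun x hx => htr x u v hx h) (List.mem_range.2 (hdom u v h).1) h (hirr u)
  · intro u v hu hv h
    by_contra hne
    have : keyLt R (List.range N) u v = true ∨ keyLt R (List.range N) v u = true := by
      rw [h93_keyLt, h93_keyLt]; omega
    rcases this with h1 | h1
    · have := h93_rk_lt R N hu h1; omega
    · have := h93_rk_lt R N hv h1; omega
  · intro u hu
    have := h93_filter_lt (List.range N) (p := fun x => keyLt R (List.range N) x u)
      (q := fun _ => true) (fun _ _ => rfl) (List.mem_range.2 hu) rfl (by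
        rw [← Bool.not_eq_true, h93_keyLt]; omega)
    unfold rkB
    simpa using this

end Crest.Agent.R286
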