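import Crest.Agent.R286.Defs

set_option autoImplicit false

namespace Crest.Agent.R286

open Crest.Sched3

theorem h55_count (m T : ℕ) (ρ : ℕ → ℕ) (h : ∀ j < m, 1 ≤ ρ j ∧ ρ j ≤ T) :
    m = ∑ t ∈ Finset.Icc 1 T, ((Finset.range m).filter fun j => ρ j = t).card := by
  rw [← Finset.card_eq_sum_card_fiberwise (f := ρ), Finset.card_range]
  intro j hj
  exact Finset.mem_coe.2 (Finset.mem_Icc.2 (h j (Finset.mem_range.1 hj)))

theorem h55_extend (n T : ℕ) (ρ₀ : ℕ → ℕ) (h0 : ∀ j < n, 1 ≤ ρ₀ j ∧ ρ₀ j ≤ T)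
    (h1 : ∀ t, ((Finset.range n).filter fun j => ρ₀ j = t).card ≤ 3) (k : ℕ) :
    n + k ≤ 3 * T → ∃ ρ : ℕ → ℕ, (∀ j < n, ρ j = ρ₀ j) ∧ (∀ j < n + k, 1 ≤ ρ j ∧ ρ j ≤ T) ∧
      ∀ t, ((Finset.range (n + k)).filter fun j => ρ j = t).card ≤ 3 := by
  induction k with
  | zero => exact fun _ => ⟨ρ₀, fun _ _ => rfl, h0, h1⟩
  | succ k ih =>
    intro hk
    obtain ⟨ρ, a1, a2, a3⟩ := ih (by omega)
    obtain ⟨t, ht, hlt⟩ : ∃ t ∈ Finset.Icc 1 T,
        ((Finset.range (n + k)).filter fun j => ρ j = t).card < 3 := by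
      refine Finset.exists_lt_of_sum_lt ?_
      rw [← h55_count (n + k) T ρ a2, Finset.sum_const, Nat.card_Icc, smul_eq_mul]
      omega
    refine ⟨Function.update ρ (n + k) t, fun j hj => ?_, fun j hj => ?_, fun t' => ?_⟩
    · rw [Function.update_of_ne (by omega), a1 j hj]
    · by_cases e : j = n + k
      · rw [e, Function.update_self]
        exact Finset.mem_Icc.1 ht
      · rw [Function.update_of_ne e]
        exact a2 j (by omega)
    · have e : (Finset.range (n + k)).filter (fun j => Function.update ρ (n + k) t j = t') =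
          (Finset.range (n + k)).filter fun j => ρ j = t' :=
        Finset.filter_congr fun j hj => by
          rw [Function.update_of_ne (Finset.mem_range.1 hj).ne]
      rw [← add_assoc, Finset.range_add_one, Finset.filter_insert, e, Function.update_self]
      split_ifs with h
      · subst h
        exact (Finset.card_insert_le _ _).trans hlt
      · exact a3 t'

/-- Padding a schedule of makespan at most `T` with dummies gives a perfect schedule. -/
theorem exists_perf {n : ℕ} (E : Fin n → Fin n → Bool) (lt : ℕ → ℕ → Prop)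
    (hlt : ∀ u v, lt u v → ∃ (hu : u < n) (hv : v < n),
      Relation.TransGen (fun a b : Fin n => E a b = true) ⟨u, hu⟩ ⟨v, hv⟩)
    (τ : Fin n → ℕ) (hτ : IsSchedule E τ) (T : ℕ) (hT : Finset.univ.sup τ ≤ T) :
    n ≤ 3 * T ∧ ∃ ρ, Perf lt (Finset.range (3 * T)) T ρ := by
  obtain ⟨ρ₀, hρ₀⟩ : ∃ ρ₀ : ℕ → ℕ, ∀ (j : ℕ) (h : j < n), ρ₀ j = τ ⟨j, h⟩ :=
    ⟨fun j => if h : j < n then τ ⟨j, h⟩ else 0, fun j h => dif_pos h⟩
  have h0 : ∀ j < n, 1 ≤ ρ₀ j ∧ ρ₀ j ≤ T := fun j h => by
    rw [hρ₀ j h]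
    exact ⟨hτ.1 _, (Finset.le_sup (f := τ) (Finset.mem_univ _)).trans hT⟩
  have h1 : ∀ t, ((Finset.range n).filter fun j => ρ₀ j = t).card ≤ 3 := by
    intro t
    refine le_trans ?_ (hτ.2.1 t)
    refine le_trans (Finset.card_le_card ?_)
      (Finset.card_image_le (s := Finset.univ.filter fun v => τ v = t) (f := Fin.val))
    intro j hj
    obtain ⟨a1, a2⟩ := Finset.mem_filter.1 hj
    have a3 := Finset.mem_range.1 a1
    exact Finset.mem_image.2 ⟨⟨j, a3⟩, Finset.mem_filter.2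
      ⟨Finset.mem_univ _, by rw [← hρ₀ j a3, a2]⟩, rfl⟩
  have hn : n ≤ 3 * T := by
    refine (h55_count n T ρ₀ h0).le.trans ((Finset.sum_le_sum fun t _ => h1 t).trans ?_)
    rw [Finset.sum_const, Nat.card_Icc, smul_eq_mul]
    omega
  obtain ⟨ρ, a1, a2, a3⟩ := h55_extend n T ρ₀ h0 h1 (3 * T - n) (by omega)
  rw [Nat.add_sub_cancel' hn] at a2 a3
  refine ⟨hn, ρ, fun j hj => a2 j (Finset.mem_range.1 hj), fun t t1 t2 => ?_,
    fun u _ v _ huv => ?_⟩
  · refine (Finset.sum_eq_sum_iff_of_le (s := Finset.Icc 1 T) (g := fun _ => 3)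
      fun t _ => a3 t).1 ?_ t (Finset.mem_Icc.2 ⟨t1, t2⟩)
    rw [← h55_count (3 * T) T ρ a2, Finset.sum_const, Nat.card_Icc, smul_eq_mul]
    omega
  · obtain ⟨hu, hv, h⟩ := hlt u v huv
    rw [a1 u hu, a1 v hv, hρ₀ u hu, hρ₀ v hv]
    generalize (⟨u, hu⟩ : Fin n) = a at h ⊢
    generalize (⟨v, hv⟩ : Fin n) = b at h ⊢
    induction h with
    | single h => exact hτ.2.2 _ _ h
    | tail _ h ih => exact ih.trans (hτ.2.2 _ _ h)

/-- One job per slot along a linear extension. -/
theorem exists_schedule_le {n : ℕ} (E : Fin n → Fin n → Bool) (hE : Acyclic E) :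
    ∃ τ : Fin n → ℕ, IsSchedule E τ ∧ Finset.univ.sup τ ≤ n := by
  classical
  obtain ⟨pc, hpc⟩ : ∃ pc : Fin n → ℕ, ∀ u v, E u v = true → pc u < pc v := by
    refine ⟨fun v => (Finset.univ.filter fun u =>
      Relation.TransGen (fun a b : Fin n => E a b = true) u v).card, fun u v h => ?_⟩
    refine Finset.card_lt_card ⟨fun w hw => ?_, fun hs => ?_⟩
    · exact Finset.mem_filter.2 ⟨Finset.mem_univ _, (Finset.mem_filter.1 hw).2.tail h⟩
    · exact hE u (Finset.mem_filter.1 (hs (Finset.mem_filter.2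
        ⟨Finset.mem_univ _, Relation.TransGen.single h⟩))).2
  obtain ⟨key, hk1, hk2⟩ : ∃ key : Fin n → ℕ ×ₗ Fin n, Function.Injective key ∧
      ∀ u v, E u v = true → key u < key v :=
    ⟨fun v => toLex (pc v, v), fun u v h => (Prod.mk.inj (toLex.injective h)).2,
      fun u v h => Prod.Lex.toLex_lt_toLex.2 (Or.inl (hpc u v h))⟩
  have hmono : ∀ u v, key u < key v → (Finset.univ.filter fun w => key w < key u).card <
      (Finset.univ.filter fun w => key w < key v).card := by
    intro u v h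
    refine Finset.card_lt_card ⟨fun w hw => ?_, fun hs => ?_⟩
    · exact Finset.mem_filter.2 ⟨Finset.mem_univ _, (Finset.mem_filter.1 hw).2.trans h⟩
    · exact lt_irrefl _ (Finset.mem_filter.1 (hs (Finset.mem_filter.2 ⟨Finset.mem_univ _, h⟩))).2
  refine ⟨fun v => (Finset.univ.filter fun w => key w < key v).card + 1,
    ⟨fun v => Nat.le_add_left _ _, fun t => ?_, fun u v h => ?_⟩, Finset.sup_le fun v _ => ?_⟩
  · refine le_trans (Finset.card_le_one.2 fun u hu v hv => ?_) (by norm_num)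
    have a1 := (Finset.mem_filter.1 hu).2
    have a2 := (Finset.mem_filter.1 hv).2
    beta_reduce at a1 a2
    rcases lt_trichotomy (key u) (key v) with h | h | h
    · have := hmono u v h
      omega
    · exact hk1 h
    · have := hmono v u h
      omega
  · exact Nat.succ_lt_succ (hmono u v (hk2 u v h))
  · have : (Finset.univ.filter fun w => key w < key v).card < (Finset.univ : Finset (Fin n)).card :=
      Finset.card_lt_card ⟨Finset.subset_univ _, fun hs =>
        lt_irrefl _ (Finset.mem_filter.1 (hs (Finset.mem_univ v))).2⟩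
    rw [Finset.card_fin] at this
    exact this

end Crest.Agent.R286
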