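import Crest.Agent.R286.Defs

set_option autoImplicit false

namespace Crest.Agent.R286

open Crest.Sched3

private theorem h62_pf : ∀ (a b r s : List Bool),
    (a.map fun x => [true, x]).flatten ++ [false, false] ++ r =
      (b.map fun x => [true, x]).flatten ++ [false, false] ++ s → a = b
  | [], [], _, _, _ => rfl
  | [], _ :: _, _, _, h => by simp at h
  | _ :: _, [], _, _, h => by simp at h
  | x :: a, y :: b, r, s, h => by
    simp only [List.map_cons, List.flatten_cons, List.cons_append, List.nil_append,
      List.cons.injEq, true_and] at h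
    rw [h.1, h62_pf a b r s h.2]

private theorem h62_bits {m n : ℕ} (h : m.bits = n.bits) : m = n := by
  rw [← Nat.ofDigits_digits 2 m, ← Nat.ofDigits_digits 2 n, Nat.digits_two_eq_bits,
    Nat.digits_two_eq_bits, h]

private theorem h62_zip : ∀ (c x : List Bool), (x.zip c).map Prod.fst = c ↔ ∃ s, x = c ++ s
  | [], x => by simp
  | _ :: _, [] => by simp
  | a :: c, b :: x => by simp [h62_zip c x]

private theorem h62_tab (n : ℕ) (E : Fin n → Fin n → Bool) :
    ((List.finRange n).map fun u => (List.finRange n).map fun v => E u v).flatten =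
      ((List.finRange n).product (List.finRange n)).map fun p => E p.1 p.2 := by
  simp [List.product, List.flatMap, List.map_flatten, Function.comp_def]

private theorem h62_prod (n : ℕ) : (List.range n).product (List.range n) =
    ((List.finRange n).product (List.finRange n)).map fun p => (p.1.val, p.2.val) := by
  rw [← List.map_coe_finRange_eq_range]
  simp only [List.product, List.flatMap, List.map_flatten, Function.comp_def, List.map_map]

private theorem h62_len (n : ℕ) (E : Fin n → Fin n → Bool) :
    n < (false :: precCode n E).length := by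
  have h : ((List.finRange n).product (List.finRange n)).length = n * n := by
    have := List.length_product (List.finRange n) (List.finRange n)
    rwa [List.length_finRange] at this
  rw [precCode, h62_tab, List.length_cons, List.length_append, List.length_map, h]
  have := Nat.le_mul_self n
  omega

private theorem h62_parseN (n : ℕ) (E : Fin n → Fin n → Bool) : parseN (precCode n E) = n := by
  have key : ∀ m, (((precCode n E).zip (Crest.Enc.natCode m)).map Prod.fst ==
      Crest.Enc.natCode m) = true ↔ m = n := by
    intro m
    rw [beq_iff_eq, h62_zip]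
    exact ⟨fun ⟨s, hs⟩ => h62_bits (h62_pf _ _ _ _ hs).symm, fun h => ⟨_, by rw [h]; rfl⟩⟩
  have : (List.range (false :: precCode n E).length).find? (fun m =>
      ((precCode n E).zip (Crest.Enc.natCode m)).map Prod.fst == Crest.Enc.natCode m) = some n := by
    rw [List.find?_range_eq_some]
    refine ⟨(key n).2 rfl, List.mem_range.2 (h62_len n E), fun j hj => ?_⟩
    rw [Bool.not_eq_true', ← Bool.not_eq_true, key]
    omega
  rw [parseN, this, Option.getD_some]

private theorem h62_tail : ∀ (c x : List Bool),
    c.foldl (fun y _ => y.tail) x = x.drop c.length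
  | [], _ => rfl
  | _ :: c, x => by rw [List.foldl_cons, h62_tail c, List.drop_tail, List.length_cons]

theorem parseJ_precCode (n : ℕ) (E : Fin n → Fin n → Bool) :
    parseJ (precCode n E) = List.range n := by
  obtain ⟨k, hk⟩ := Nat.exists_eq_add_of_le (h62_len n E).le
  rw [parseJ, h62_parseN, hk, List.range_add, List.filter_append,
    List.filter_eq_self.2 (by simp), List.filter_eq_nil_iff.2 (by simp), List.append_nil]

theorem ltB_parseE (n : ℕ) (E : Fin n → Fin n → Bool) (u v : ℕ) :
    ltB (parseE (precCode n E)) u v = true ↔ ∃ (hu : u < n) (hv : v < n), E ⟨u, hu⟩ ⟨v, hv⟩ = true := by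
  have e : (precCode n E).drop (Crest.Enc.natCode n).length =
      ((List.finRange n).product (List.finRange n)).map fun p => E p.1 p.2 := by
    rw [← h62_tab]; exact List.drop_left
  rw [ltB, parseE, parseJ_precCode, h62_parseN, h62_tail, e, h62_prod, List.zip_map',
    List.contains_iff_mem]
  simp only [List.mem_map, List.mem_filter]
  constructor
  · rintro ⟨_, ⟨⟨p, -, rfl⟩, hp⟩, h⟩
    obtain ⟨rfl, rfl⟩ := Prod.mk.inj h
    exact ⟨p.1.2, p.2.2, hp⟩
  · rintro ⟨hu, hv, h⟩
    exact ⟨_, ⟨⟨(⟨u, hu⟩, ⟨v, hv⟩),
      List.pair_mem_product.2 ⟨List.mem_finRange _, List.mem_finRange _⟩, rfl⟩, h⟩, rfl⟩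

/-- The closure computed by the program is the transitive closure of the table. -/
theorem transGen_parseE (n : ℕ) (E : Fin n → Fin n → Bool) (u v : ℕ) :
    Relation.TransGen (fun a b => ltB (parseE (precCode n E)) a b = true) u v ↔
      ∃ (hu : u < n) (hv : v < n),
        Relation.TransGen (fun a b : Fin n => E a b = true) ⟨u, hu⟩ ⟨v, hv⟩ := by
  constructor
  · intro h
    induction h with
    | single h =>
      obtain ⟨hu, hv, h⟩ := (ltB_parseE n E _ _).1 h
      exact ⟨hu, hv, .single h⟩
    | tail _ h ih =>
      obtain ⟨hu, _, ih⟩ := ih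
      obtain ⟨_, hv, h⟩ := (ltB_parseE n E _ _).1 h
      exact ⟨hu, hv, ih.tail h⟩
  · rintro ⟨hu, hv, h⟩
    exact h.lift Fin.val fun a b hab => (ltB_parseE n E _ _).2 ⟨a.2, b.2, hab⟩

end Crest.Agent.R286
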