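import Crest.Agent.R286.Time
import Crest.Agent.R286.Complete
import Crest.Agent.R286.Order
import Crest.Agent.R286.Pad
import Crest.Agent.R286.Parse

/-!
Row 286: correctness of the program, given the completeness of the derivation rules.
-/

set_option autoImplicit false
set_option linter.dupNamespace false

namespace Crest.Agent.R286

open Crest.Enc Crest.Sched3

lemma findSome?_range {β : Type} (g : ℕ → Option β) (m : ℕ) {b : β}
    (h : (List.range m).findSome? g = some b) :
    ∃ N, N < m ∧ g N = some b ∧ ∀ N', N' < N → g N' = none := by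
  induction m with
  | zero => simp at h
  | succ m ih =>
    rw [List.range_succ, List.findSome?_append] at h
    cases h1 : (List.range m).findSome? g with
    | some c =>
      rw [h1] at h
      obtain rfl : c = b := by simpa using h
      obtain ⟨N, h2, h3⟩ := ih h1
      exact ⟨N, by omega, h3⟩
    | none =>
      rw [h1] at h
      refine ⟨m, by omega, by simpa using h, fun N' hN' => ?_⟩
      exact List.findSome?_eq_none_iff.1 h1 N' (List.mem_range.2 hN')

lemma filter_lt_range {m N : ℕ} (h : N ≤ m) :
    (List.range m).filter (fun j => decide (j < N)) = List.range N := by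
  obtain ⟨d, rfl⟩ := Nat.exists_eq_add_of_le h
  rw [List.range_add, List.filter_append, List.filter_eq_self.2, List.filter_eq_nil_iff.2]
  · simp
  · simp
  · simp

/-- The completeness of the derivation rules. -/
def MainThm : Prop :=
  ∀ (N : ℕ) (lt : ℕ → ℕ → Prop) (rk : ℕ → ℕ) (k : ℕ) (ρ : ℕ → ℕ), Ord N lt rk → 1 ≤ k →
    Perf lt (Finset.range N) k ρ → ∃ S, Der N lt rk k (Finset.range N) S

theorem prog_spec (hmain : MainThm) (n : ℕ) (E : Fin n → Fin n → Bool) (hn : 1 ≤ n)
    (hE : Acyclic E) :
    ∃ τ : Fin n → ℕ, prog (precCode n E) = listCode (List.ofFn τ) ∧ IsSchedule E τ ∧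
      ∀ τ' : Fin n → ℕ, IsSchedule E τ' → Finset.univ.sup τ ≤ Finset.univ.sup τ' := by
  set R := warshall (List.range n) (parseE (precCode n E)) with hRd
  have hR : ∀ u v, ltB R u v = true ↔ ∃ (hu : u < n) (hv : v < n),
      Relation.TransGen (fun a b : Fin n => E a b = true) ⟨u, hu⟩ ⟨v, hv⟩ := by
    intro u v
    rw [hRd, ltB_warshall n _ (fun u v h => by
      obtain ⟨hu, hv, -⟩ := (ltB_parseE n E u v).1 h
      exact ⟨hu, hv⟩), transGen_parseE]
  set g : ℕ → Option Sch := fun N => if N < n then none else
    solve R ((List.range (3 * n + 1)).filter (fun j => decide (j < N))) with hg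
  have hsol : ∀ τ' : Fin n → ℕ, IsSchedule E τ' → Finset.univ.sup τ' ≤ n →
      (g (3 * Finset.univ.sup τ')).isSome = true := by
    intro τ' h' hle
    obtain ⟨h1, ρ, h2⟩ := exists_perf E (fun u v => ltB R u v = true) (fun u v h => (hR u v).1 h)
      τ' h' _ le_rfl
    have ho := ord_rkB R (3 * Finset.univ.sup τ') (fun u v h => by
        obtain ⟨hu, hv, -⟩ := (hR u v).1 h
        omega)
      (fun u v w h1 h2 => by
        obtain ⟨hu, hv, h3⟩ := (hR u v).1 h1
        obtain ⟨_, hw, h4⟩ := (hR v w).1 h2
        exact (hR u w).2 ⟨hu, hw, h3.trans h4⟩)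
      (fun u => by
        by_contra h
        obtain ⟨hu, _, h3⟩ := (hR u u).1 (by simpa using h)
        exact hE _ h3)
    obtain ⟨S, hS⟩ := hmain _ _ _ _ ρ ho (by omega) h2
    simp only [hg]
    rw [if_neg (by omega), filter_lt_range (by omega)]
    exact solve_isSome R _ hS (by omega)
  obtain ⟨τ₀, h₀, h₀'⟩ := exists_schedule_le E hE
  obtain ⟨σ, hσ⟩ : ∃ σ, (List.range (3 * n + 1)).findSome? g = some σ := by
    cases h : (List.range (3 * n + 1)).findSome? g with
    | some σ => exact ⟨σ, rfl⟩
    | none =>
      have h1 := List.findSome?_eq_none_iff.1 h (3 * Finset.univ.sup τ₀)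
        (List.mem_range.2 (by omega))
      have h2 := hsol τ₀ h₀ h₀'
      rw [h1] at h2
      simp at h2
  obtain ⟨N, hN, hN1, hN2⟩ := findSome?_range g _ hσ
  have hnN : n ≤ N := by
    by_contra h
    simp only [hg] at hN1
    rw [if_pos (by omega)] at hN1
    simp at hN1
  simp only [hg] at hN1
  rw [if_neg (by omega), filter_lt_range (by omega)] at hN1
  obtain ⟨hgood, hcov⟩ := good_solve hN1
  have hcov' : ∀ j, j < n → j ∈ σ.flatten := fun j hj => hcov j (List.mem_range.2 (by omega))
  have hlen := hgood.three_mul_length_le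
  rw [List.length_range] at hlen
  refine ⟨fun v => slot σ v, ?_, ⟨fun v => Nat.le_add_left _ _, hgood.card_slot hcov',
    fun u v h => hgood.prec _ (hcov' _ u.2) _ (hcov' _ v.2)
      ((hR u v).2 ⟨u.2, v.2, Relation.TransGen.single h⟩)⟩, fun τ' h' => ?_⟩
  · unfold prog core finish best
    rw [parseJ_precCode]
    have e : (0 :: (List.range n ++ List.range n ++ List.range n)).length = 3 * n + 1 := by
      simp; omega
    rw [e, List.length_range, ← hRd]
    have e2 : (List.range (3 * n + 1)).findSome? (fun N => if N < n then none else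
      solve R ((List.range (3 * n + 1)).filter (fun j => decide (j < N)))) = some σ := hσ
    rw [e2, Option.getD_some]
    congr 1
    apply List.ext_getElem <;> simp
  · refine Finset.sup_le fun v _ => (slot_le (hcov' _ v.2)).trans ?_
    by_cases hle : Finset.univ.sup τ' ≤ n
    · have h1 := hsol τ' h' hle
      by_contra h2
      rw [hN2 _ (by omega)] at h1
      simp at h1
    · omega

theorem result_of_main (hmain : MainThm) :
    ∃ f : List Bool → List Bool,
      (∃ C : ℕ, Crest.DTime.TimeBound f (fun L => C * (L + 2) ^ 150020 + C)) ∧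
      ∀ (n : ℕ) (E : Fin n → Fin n → Bool), 1 ≤ n → Acyclic E →
        ∃ τ : Fin n → ℕ, f (precCode n E) = listCode (List.ofFn τ) ∧ IsSchedule E τ ∧
          ∀ τ' : Fin n → ℕ, IsSchedule E τ' → Finset.univ.sup τ ≤ Finset.univ.sup τ' :=
  ⟨prog, timeBound_prog, prog_spec hmain⟩

end Crest.Agent.R286
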