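import Crest.Agent.R286.Defs

set_option autoImplicit false

namespace Crest.Agent.R286

private theorem h28_lt {σ : Sch} {j : ℕ} :
    σ.findIdx (fun s => s.contains j) < σ.length ↔ j ∈ σ.flatten := by
  simp [List.findIdx_lt_length]

private theorem h28_left {a b : Sch} {j : ℕ} (h : j ∈ a.flatten) : slot (a ++ b) j = slot a j := by
  unfold slot
  rw [List.findIdx_append, if_pos (h28_lt.2 h)]

private theorem h28_right {a b : Sch} {j : ℕ} (h : j ∉ a.flatten) :
    slot (a ++ b) j = slot b j + a.length := by
  unfold slot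
  rw [List.findIdx_append, if_neg (fun h' => h (h28_lt.1 h'))]
  omega

private theorem h28_prod {α β : Type} {l₁ : List α} {l₂ : List β} {p : α × β}
    (h : p ∈ l₁.product l₂) : p.1 ∈ l₁ ∧ p.2 ∈ l₂ :=
  List.pair_mem_product.1 h

theorem good_base {R : Rel} {js : List ℕ} {σ : Sch} (h : σ ∈ base R js) : Good R js σ := by
  obtain ⟨⟨a, b, c⟩, hs, rfl⟩ := List.mem_map.1 h
  obtain ⟨h1, h2⟩ := List.mem_filter.1 hs
  obtain ⟨ha, h3⟩ := h28_prod h1
  obtain ⟨hb, hc⟩ := h28_prod h3
  simp only [Bool.and_eq_true, bne_iff_ne, ne_eq] at h2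
  obtain ⟨⟨⟨hab, hac⟩, hbc⟩, hok⟩ := h2
  have e : [[a, b, c]].flatten = [a, b, c] := rfl
  refine ⟨fun s hs => ?_, ?_, fun j hj => ?_, fun u hu v hv huv => ?_⟩
  · rw [List.mem_singleton.1 hs]
    rfl
  · simp [hab, hac, hbc]
  · simp only [e, List.mem_cons, List.not_mem_nil, or_false] at hj
    rcases hj with rfl | rfl | rfl
    exacts [ha, hb, hc]
  · have h4 := List.all_eq_true.1 (List.all_eq_true.1 hok u hu) v hv
    rw [huv] at h4
    exact absurd h4 (by decide)

theorem good_append {R : Rel} {js : List ℕ} {a b : Sch} (ha : Good R js a) (hb : Good R js b)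
    (hc : compat R a b = true) : Good R js (a ++ b) := by
  have hc' : ∀ u ∈ b.flatten, ∀ v ∈ a.flatten, u ≠ v ∧ ltB R u v = false := by
    intro u hu v hv
    have h4 := List.all_eq_true.1 (List.all_eq_true.1 hc u hu) v hv
    simpa using h4
  refine ⟨fun s hs => (List.mem_append.1 hs).elim (ha.len s) (hb.len s), ?_, fun j hj => ?_,
    fun u hu v hv huv => ?_⟩
  · rw [List.flatten_append]
    exact List.nodup_append.2 ⟨ha.nodup, hb.nodup, fun v hv u hu => (hc' u hu v hv).1.symm⟩
  · rw [List.flatten_append] at hj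
    exact (List.mem_append.1 hj).elim (ha.sub j) (hb.sub j)
  · rw [List.flatten_append, List.mem_append] at hu hv
    by_cases h1 : u ∈ a.flatten <;> by_cases h2 : v ∈ a.flatten
    · rw [h28_left h1, h28_left h2]
      exact ha.prec u h1 v h2 huv
    · rw [h28_left h1, h28_right h2]
      have := h28_lt.2 h1
      unfold slot
      omega
    · rw [(hc' u (hu.resolve_left h1) v h2).2] at huv
      exact absurd huv (by decide)
    · rw [h28_right h1, h28_right h2]
      exact Nat.add_lt_add_right (hb.prec u (hu.resolve_left h1) v (hv.resolve_left h2) huv) _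

theorem good_round {R : Rel} {js : List ℕ} {ks : List Key} {tab : List Sch}
    (h : ∀ σ ∈ tab, Good R js σ) : ∀ σ ∈ round R js ks tab, Good R js σ := by
  intro σ hσ
  rcases List.mem_append.1 hσ with h1 | h1
  · exact good_base h1
  · obtain ⟨c, -, h2⟩ := List.mem_filterMap.1 h1
    obtain ⟨p, hp, rfl⟩ := List.mem_map.1 (List.mem_of_find?_eq_some h2)
    obtain ⟨h3, h4⟩ := List.mem_filter.1 hp
    exact good_append (h _ (h28_prod h3).1) (h _ (h28_prod h3).2) h4

/-- Holds for all lists `l` (used for the size invariant of the loop as well). -/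
theorem good_foldl (R : Rel) (js : List ℕ) (ks : List Key) (l : List ℕ) :
    ∀ σ ∈ l.foldl (fun tab _ => round R js ks tab) [], Good R js σ := by
  induction l using List.reverseRecOn with
  | nil => intro σ hσ; exact absurd hσ List.not_mem_nil
  | append_singleton l a ih =>
    rw [List.foldl_append]
    exact good_round ih

theorem good_solve {R : Rel} {js : List ℕ} {σ : Sch} (h : solve R js = some σ) :
    Good R js σ ∧ ∀ j ∈ js, j ∈ σ.flatten := by
  refine ⟨good_foldl R js _ js σ (List.mem_of_find?_eq_some h), fun j hj => ?_⟩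
  have h1 := List.find?_some (p := fun σ : Sch => js.all fun j => σ.flatten.contains j) h
  simpa using List.all_eq_true.1 h1 j hj

theorem Good.three_mul_length_le {R : Rel} {js : List ℕ} {σ : Sch} (h : Good R js σ) :
    3 * σ.length ≤ js.length := by
  have h1 : σ.flatten.length = 3 * σ.length := by
    rw [List.length_flatten, List.map_congr_left (g := fun _ => 3) h.len]
    simp [mul_comm]
  rw [← h1]
  exact (h.nodup.subperm h.sub).length_le

theorem slot_le {σ : Sch} {j : ℕ} (h : j ∈ σ.flatten) : slot σ j ≤ σ.length := by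
  exact h28_lt.2 h

/-- At most three scheduled jobs share a slot. -/
theorem Good.card_slot {R : Rel} {js : List ℕ} {σ : Sch} (h : Good R js σ) {n : ℕ}
    (hn : ∀ j, j < n → j ∈ σ.flatten) (t : ℕ) :
    (Finset.univ.filter fun v : Fin n => slot σ v = t).card ≤ 3 := by
  have h1 : (σ.getD (t - 1) []).length ≤ 3 := by
    by_cases ht : t - 1 < σ.length
    · rw [List.getD_eq_getElem _ _ ht, h.len _ (List.getElem_mem ht)]
    · rw [List.getD_eq_default _ _ (not_lt.1 ht)]
      exact Nat.zero_le _
  refine le_trans (Finset.card_le_card_of_injOn (t := (σ.getD (t - 1) []).toFinset) Fin.val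
    (fun v hv => ?_) Fin.val_injective.injOn) ((List.toFinset_card_le _).trans h1)
  have h2 : slot σ v = t := (Finset.mem_filter.1 (Finset.mem_coe.1 hv)).2
  have h3 := h28_lt.2 (hn v v.2)
  have h4 := List.findIdx_getElem (w := h3)
  rw [← h2, slot, Nat.add_sub_cancel, List.getD_eq_getElem _ _ h3]
  simpa using h4

end Crest.Agent.R286
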