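import Crest.Agent.R286.Time2

set_option autoImplicit false

namespace Crest.Agent.R286

open Crest.Agent.Lib.PT Crest.Agent.Lib.PD

theorem pd_dropFold : PD 2 1
    (fun p : List Bool × List Bool => p.1.foldl (fun (y : List Bool) _ => y.tail) p.2) := by
  refine (PD.foldl_inv (f := fun (_ : List Bool × List Bool) (y : List Bool) (_ : Bool) => y.tail)
    (fun p y => sz y ≤ sz p) (fun p => sz p) PD.id.snd.fst.tail PD.id.fst PD.id.snd DB.sz_id
    (fun p => sz_snd_le p) (fun p y _ _ h => (sz_tail_le y).trans h) (fun _ _ h => h)).mono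
    (by decide) le_rfl

theorem pd_parseE : PD 100 8 parseE := by
  have h := pd_dropFold.comp (f := fun x => (Crest.Enc.natCode (parseN x), x))
    (pd_parseN.natCode.pair PD.id)
  show PD 100 8 (fun r => parseE r)
  unfold parseE
  apply PD.mono
  case h =>
    apply PD.map
    · apply PD.filter
      · apply PD.zip
        · repeat' pd_step
        · exact h
      · repeat' pd_step
    · repeat' pd_step
  all_goals decide

theorem sz_parseE_le (x : List Bool) : sz (parseE x) ≤ sz ((parseJ x).product (parseJ x)) := by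
  unfold parseE
  generalize (parseJ x).product (parseJ x) = l
  generalize List.foldl (fun (y : List Bool) (_ : Bool) => y.tail) x _ = m
  refine sz_sublist_le ((List.filter_sublist.map _).trans ?_)
  induction l generalizing m with
  | nil => simp
  | cons a l ih => cases m <;> simp [ih]

theorem pd_parseE' : PD 100 4 parseE :=
  pd_parseE.of_size ((pd_parseJ.product pd_parseJ).size.of_le sz_parseE_le)

theorem pd_warshall : PD 41 2 (fun p : List ℕ × Rel => warshall p.1 p.2) := by
  have h1 : PD 20 2 (fun p : (List ℕ × Rel) × Rel × ℕ => wStep p.1.1 p.2.1 p.2.2) :=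
    (comp₃ pd_wStep PD.id.fst.fst PD.id.snd.fst PD.id.snd.snd).mono (by decide) (by decide)
  refine (PD.foldl_inv (f := fun (p : List ℕ × Rel) (R : Rel) (k : ℕ) => wStep p.1 R k)
    (fun p R => sz R ≤ sz p + sz (p.1.product p.1)) (fun p => sz p + sz (p.1.product p.1))
    h1 PD.id.fst PD.id.snd (DB.sz_id.add (PD.id.fst.product PD.id.fst).size)
    (fun p => (sz_snd_le p).trans (Nat.le_add_right _ _))
    (fun p R k _ _ => (sz_filter_le _ _).trans (Nat.le_add_left _ _)) (fun _ _ h => h)).mono
    (by decide) (by decide)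

theorem sz_warshall_le (js : List ℕ) (E : Rel) :
    sz (warshall js E) ≤ sz E + sz (js.product js) := by
  unfold warshall
  suffices ∀ (l : List ℕ) (R : Rel), sz R ≤ sz E + sz (js.product js) →
      sz (l.foldl (wStep js) R) ≤ sz E + sz (js.product js) from this _ _ (Nat.le_add_right _ _)
  intro l
  induction l with
  | nil => intro R h; exact h
  | cons k l ih => intro R _; exact ih _ ((sz_filter_le _ _).trans (Nat.le_add_left _ _))

theorem Good.sz_le {R : Rel} {js : List ℕ} {σ : Sch} (h : Good R js σ) :
    sz σ ≤ 9 * (sz js * sz js) := by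
  have h1 := h.three_mul_length_le
  have h2 := length_lt_sz js
  have h3 := sz_list_le σ ((sz js + 1) * 3 + 1) fun s hs => by
    have := sz_list_le s (sz js) fun j hj => sz_le_of_mem (h.sub j (List.mem_flatten.2 ⟨s, hs, hj⟩))
    rwa [h.len s hs] at this
  have h4 : ((sz js + 1) * 3 + 1 + 1) * σ.length ≤ ((sz js + 1) * 3 + 1 + 1) * sz js :=
    Nat.mul_le_mul_left _ (by omega)
  nlinarith

theorem length_round_le (R : Rel) (js : List ℕ) (ks : List Key) (tab : List Sch) :
    (round R js ks tab).length ≤ sz (triples js) + sz ks := by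
  unfold round base pickAll
  rw [List.length_append, List.length_map]
  exact Nat.add_le_add ((List.length_filter_le _ _).trans (length_le_sz _))
    ((List.length_filterMap_le _ _).trans (length_le_sz _))

theorem pd_table : PD 241 5 (fun p : Rel × List ℕ × List Key => table p.1 p.2.1 p.2.2) := by
  have h1 : PD 48 8 (fun p : (Rel × List ℕ × List Key) × List Sch × ℕ =>
      round p.1.1 p.1.2.1 p.1.2.2 p.2.1) :=
    (comp₄ pd_round PD.id.fst.fst PD.id.fst.snd.fst PD.id.fst.snd.snd PD.id.snd.fst).mono
      (by decide) (by decide)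
  have hj : DB 1 (fun p : Rel × List ℕ × List Key => sz p.2.1) := PD.id.snd.fst.size
  have hk : DB 1 (fun p : Rel × List ℕ × List Key => sz p.2.2) := PD.id.snd.snd.size
  have ht : DB (3 * 1) (fun p : Rel × List ℕ × List Key => sz (triples p.2.1)) :=
    (pd_triples.comp PD.id.snd.fst).size
  refine (PD.foldl_inv
    (f := fun (p : Rel × List ℕ × List Key) (tab : List Sch) (_ : ℕ) => round p.1 p.2.1 p.2.2 tab)
    (fun p tab => (∀ σ ∈ tab, Good p.1 p.2.1 σ) ∧ tab.length ≤ sz (triples p.2.1) + sz p.2.2)
    (fun p => (9 * (sz p.2.1 * sz p.2.1) + 1) * (sz (triples p.2.1) + sz p.2.2) + 1)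
    h1 PD.id.snd.fst (PD.const []) (((((hj.mul hj).const_mul 9).add_const 1).mul
      (ht.add hk)).add_const 1) (fun p => by simp)
    (fun p tab _ _ h => ⟨good_round h.1, length_round_le _ _ _ _⟩) (fun p tab h => ?_)).mono
    (by decide) (by decide)
  exact (sz_list_le tab _ fun σ hσ => (h.1 σ hσ).sz_le).trans
    (Nat.add_le_add_right (Nat.mul_le_mul_left _ h.2) 1)
macro_rules | `(tactic| pd_step) => `(tactic| with_reducible apply comp₃ pd_table)

theorem pd_solve : PD 4600 95 (fun p : Rel × List ℕ => solve p.1 p.2) := by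
  unfold solve; pd
macro_rules | `(tactic| pd_step) => `(tactic| with_reducible apply PD.comp₂ pd_solve)

theorem pd_best : PD 4700 96 (fun p : Rel × ℕ × List ℕ => best p.1 p.2.1 p.2.2) := by
  unfold best; pd
macro_rules | `(tactic| pd_step) => `(tactic| with_reducible apply comp₃ pd_best)

theorem pd_core : PD 4700 400 (fun p : List ℕ × Rel × List ℕ => core p.1 p.2.1 p.2.2) := by
  unfold core; pd

theorem pd_prog : PD 20000 1600 prog := by
  have h1 : PD 200 4 (fun x => warshall (parseJ x) (parseE x)) :=
    ((PD.comp₂ pd_warshall pd_parseJ pd_parseE').of_size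
      ((pd_parseE'.size.add (pd_parseJ.product pd_parseJ).size).of_le
        fun x => sz_warshall_le _ _)).mono (by decide) (by decide)
  have h2 : PD 50 4 (fun x => List.range (0 :: (parseJ x ++ parseJ x ++ parseJ x)).length) := by
    pd
  exact (comp₃ pd_core pd_parseJ h1 h2).mono (by decide) (by decide)

theorem timeBound_prog :
    ∃ C : ℕ, Crest.DTime.TimeBound prog (fun L => C * (L + 2) ^ 150020 + C) :=
  pd_prog.timeBound (by norm_num)

end Crest.Agent.R286
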