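import Crest.Agent.R286.Build4
import Crest.Agent.R286.Order
import Crest.Agent.R286.Parse
import Crest.Agent.R286.Sound
import Crest.Agent.R286.Complete
import Crest.Agent.R286.Pad
import Crest.Agent.R286.Time3

set_option autoImplicit false

namespace Crest.Agent.R286

open Crest.Sched3 Crest.Enc

theorem filter_lt_range {M N : ℕ} (h : N ≤ M) :
    (List.range M).filter (fun j => decide (j < N)) = List.range N := by
  induction M, h using Nat.le_induction with
  | base => exact List.filter_eq_self.2 fun a ha => by simpa using ha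
  | succ M h ih => rw [List.range_succ, List.filter_append, ih]; simp; omega

theorem findSome?_range {β : Type} (g : ℕ → Option β) (M N₀ : ℕ) (h : N₀ < M)
    (hs : (g N₀).isSome = true) :
    ∃ N b, N ≤ N₀ ∧ g N = some b ∧ (List.range M).findSome? g = some b := by
  induction M generalizing N₀ with
  | zero => omega
  | succ M ih =>
    rw [List.range_succ, List.findSome?_append]
    by_cases h1 : ∃ N₁, N₁ < M ∧ N₁ ≤ N₀ ∧ (g N₁).isSome = true
    · obtain ⟨N₁, h2, h3, h4⟩ := h1
      obtain ⟨N, b, h5, h6, h7⟩ := ih N₁ h2 h4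
      exact ⟨N, b, by omega, h6, by rw [h7]; rfl⟩
    · have h2 : N₀ = M := by
        by_contra h2
        exact h1 ⟨N₀, by omega, le_rfl, hs⟩
      subst h2
      obtain ⟨b, hb⟩ := Option.isSome_iff_exists.1 hs
      have h3 : (List.range N₀).findSome? g = none := by
        rw [List.findSome?_eq_none_iff]
        intro x hx
        have hx' := List.mem_range.1 hx
        by_contra h4
        exact h1 ⟨x, hx', hx'.le, Option.isSome_iff_ne_none.2 h4⟩
      exact ⟨N₀, b, le_rfl, hb, by rw [h3]; simp [hb]⟩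

theorem prog_correct (n : ℕ) (E : Fin n → Fin n → Bool) (hn : 1 ≤ n) (hE : Acyclic E) :
    ∃ τ : Fin n → ℕ, prog (precCode n E) = listCode (List.ofFn τ) ∧ IsSchedule E τ ∧
      ∀ τ' : Fin n → ℕ, IsSchedule E τ' → Finset.univ.sup τ ≤ Finset.univ.sup τ' := by
  classical
  obtain ⟨R, hR⟩ : ∃ R, R = warshall (List.range n) (parseE (precCode n E)) := ⟨_, rfl⟩
  have hlt : ∀ u v, ltB R u v = true ↔ ∃ (hu : u < n) (hv : v < n),
      Relation.TransGen (fun a b : Fin n => E a b = true) ⟨u, hu⟩ ⟨v, hv⟩ := fun u v => by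
    rw [hR, ltB_warshall n _ (fun u v h => by
      obtain ⟨hu, hv, -⟩ := (ltB_parseE n E u v).1 h
      exact ⟨hu, hv⟩), transGen_parseE]
  have hex : ∃ T, ∃ τ : Fin n → ℕ, IsSchedule E τ ∧ Finset.univ.sup τ ≤ T :=
    ⟨n, exists_schedule_le E hE⟩
  obtain ⟨τ₀, h₀, hT⟩ := Nat.find_spec hex
  have hTn : Nat.find hex ≤ n := Nat.find_min' hex (exists_schedule_le E hE)
  obtain ⟨hn3, ρ, hρ⟩ := exists_perf E (fun u v => ltB R u v = true)
    (fun u v h => (hlt u v).1 h) τ₀ h₀ _ hT
  have ho := ord_rkB R (3 * Nat.find hex) (fun u v h => by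
      obtain ⟨hu, hv, -⟩ := (hlt u v).1 h
      omega)
    (fun u v w h1 h2 => by
      obtain ⟨hu, hv, h1⟩ := (hlt u v).1 h1
      obtain ⟨_, hw, h2⟩ := (hlt v w).1 h2
      exact (hlt u w).2 ⟨hu, hw, h1.trans h2⟩)
    (fun u => by
      by_contra h
      obtain ⟨hu, _, h1⟩ := (hlt u u).1 (by simpa using h)
      exact hE _ h1)
  obtain ⟨k, S, hk, hD⟩ := build_root ho hρ (by omega)
  have hsome := solve_isSome R _ hD hk
  obtain ⟨N, σ, hN, hσ, hfind⟩ := findSome?_range (fun N => if N < n then none else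
    solve R ((List.range (3 * n + 1)).filter (fun j => decide (j < N)))) (3 * n + 1)
    (3 * Nat.find hex) (by omega) (by
      rw [if_neg (by omega), filter_lt_range (by omega)]; exact hsome)
  have hNn : n ≤ N := by
    by_contra h
    rw [if_pos (by omega)] at hσ
    exact absurd hσ (by simp)
  rw [if_neg (by omega), filter_lt_range (by omega)] at hσ
  obtain ⟨hg, hall⟩ := good_solve hσ
  have hmem : ∀ j, j < n → j ∈ σ.flatten := fun j hj => hall j (List.mem_range.2 (by omega))
  have hlen := hg.three_mul_length_le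
  rw [List.length_range] at hlen
  refine ⟨fun v => slot σ v, ?_, ⟨fun v => by simp [slot], hg.card_slot hmem, fun u v h =>
    hg.prec u (hmem u u.2) v (hmem v v.2) ((hlt u v).2 ⟨u.2, v.2, .single h⟩)⟩, fun τ' hτ' => ?_⟩
  · have e : (0 :: (List.range n ++ List.range n ++ List.range n)).length = 3 * n + 1 := by
      simp; omega
    rw [prog, parseJ_precCode, ← hR, e, core, best, List.length_range, hfind, finish]
    congr 1
    refine List.ext_getElem (by simp) fun i h1 h2 => by simp
  · refine le_trans (Finset.sup_le fun v _ => ?_) (Nat.find_min' hex ⟨τ', hτ', le_rfl⟩)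
    have := slot_le (hmem v v.2)
    omega

end Crest.Agent.R286
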