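import Crest.Agent.Lib.PT.Exp

/-!
Row 286, machine side: a graded time calculus.  `Q k f` says that `f` is computed at cost
`O(sz ^ (k+1))` and has output of linear size.  For a fixed `k` the class is closed under
composition; every loop costs one more degree.  Goals are discharged by `fun_prop`.
-/

set_option autoImplicit false
set_option linter.dupNamespace false

namespace Crest.Agent.R286

open Crest.Agent.Lib.PT

/-- time `O(sz^(k+1))`, output size `O(sz)` -/
@[fun_prop] def Q {α β : Type} [Enc α] [Enc β] (k : ℕ) (f : α → β) : Prop :=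
  ∃ c : ℕ, TimeF f (fun a => c * sz a ^ (k + 1)) ∧ ∀ a, sz (f a) ≤ c * sz a

variable {α β γ δ σ : Type} [Enc α] [Enc β] [Enc γ] [Enc δ] [Enc σ] {k : ℕ}

lemma le_pow_succ (n k : ℕ) (hn : 0 < n) : n ≤ n ^ (k + 1) :=
  Nat.le_self_pow (by omega) n

protected lemma Q.mono {f : α → β} {k' : ℕ} (h : Q k f) (hk : k ≤ k') : Q k' f := by
  obtain ⟨c, h1, h2⟩ := h
  exact ⟨c, h1.mono fun a => Nat.mul_le_mul_left c
    (Nat.pow_le_pow_right (sz_pos a) (by omega)), h2⟩

protected lemma Q.of_lin {f : α → β} {c : ℕ} (h : TimeF f (fun a => c * sz a)) : Q k f :=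
  ⟨c, h.mono fun a => Nat.mul_le_mul_left c (le_pow_succ _ _ (sz_pos a)), h.sz_le⟩

protected lemma Q.intro {f : α → β} {c c' : ℕ} (h : TimeF f (fun a => c * sz a ^ (k + 1)))
    (h' : ∀ a, sz (f a) ≤ c' * sz a) : Q k f :=
  ⟨c + c', h.mono fun a => Nat.mul_le_mul_right _ (by omega),
    fun a => (h' a).trans (Nat.mul_le_mul_right _ (by omega))⟩

protected lemma Q.of_enc {f : α → β} {g : α → γ} (h : Q k g) (hfg : ∀ a, enc (f a) = enc (g a)) :
    Q k f := by
  obtain ⟨c, h1, h2⟩ := h
  refine ⟨c, h1.of_enc hfg, fun a => ?_⟩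
  have := h2 a
  unfold sz at this ⊢
  rw [hfg]; exact this

protected lemma Q.congr {f g : α → β} (h : Q k g) (hfg : ∀ a, f a = g a) : Q k f :=
  h.of_enc fun a => by rw [hfg]

@[fun_prop] protected lemma Q.id : Q k (fun a : α => a) :=
  Q.of_lin (c := 1) (TimeF.id.mono fun a => by simp)

@[fun_prop] protected lemma Q.id' : Q k (_root_.id : α → α) := Q.id

@[fun_prop] protected lemma Q.const (b : β) : Q k (fun _ : α => b) :=
  Q.of_lin (TimeF.const b)

@[fun_prop] protected lemma Q.comp {g : β → γ} {f : α → β} (hg : Q k g) (hf : Q k f) :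
    Q k (fun a => g (f a)) := by
  obtain ⟨c, h1, h2⟩ := hg
  obtain ⟨d, h3, h4⟩ := hf
  refine Q.intro (c := d + c * d ^ (k + 1)) (c' := c * d) ((h1.comp h3).mono fun a => ?_) fun a => ?_
  · have : sz (f a) ^ (k + 1) ≤ (d * sz a) ^ (k + 1) := Nat.pow_le_pow_left (h4 a) _
    rw [mul_pow] at this
    have := Nat.mul_le_mul_left c this
    beta_reduce
    rw [add_mul, mul_assoc]
    omega
  · exact (h2 _).trans (by rw [mul_assoc]; exact Nat.mul_le_mul_left c (h4 a))

@[fun_prop] protected lemma Q.pair {f : α → β} {g : α → γ} (hf : Q k f) (hg : Q k g) :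
    Q k (fun a => (f a, g a)) := by
  obtain ⟨c, h1, h2⟩ := hf
  obtain ⟨d, h3, h4⟩ := hg
  refine Q.intro (c := c + d + 1) (c' := c + d + 1) ((h1.pair h3).mono fun a => ?_) fun a => ?_
  · have : 0 < sz a ^ (k + 1) := pow_pos (sz_pos a) _
    beta_reduce
    rw [add_mul, add_mul]
    omega
  · have := h2 a
    have := h4 a
    have := sz_pos a
    rw [sz_pair, add_mul, add_mul]
    omega

@[fun_prop] protected lemma Q.enc {f : α → β} (hf : Q k f) : Q k (fun a => enc (f a)) :=
  hf.of_enc fun _ => rfl

@[fun_prop] protected lemma Q.car {f : α → D} (hf : Q k f) : Q k (fun a => (f a).car) :=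
  Q.comp (g := D.car) (Q.of_lin (c := 1)
    ⟨.car, fun a => (Eval.car a).evalLe.mono (by simp [sz_D])⟩) hf

@[fun_prop] protected lemma Q.cdr {f : α → D} (hf : Q k f) : Q k (fun a => (f a).cdr) :=
  Q.comp (g := D.cdr) (Q.of_lin (c := 1)
    ⟨.cdr, fun a => (Eval.cdr a).evalLe.mono (by simp [sz_D])⟩) hf

@[fun_prop] protected lemma Q.dcons {f g : α → D} (hf : Q k f) (hg : Q k g) :
    Q k (fun a => D.cons (f a) (g a)) := (hf.pair hg).of_enc fun _ => rfl

@[fun_prop] protected lemma Q.iteNil {c : α → D} {f g : α → β} (hc : Q k c) (hf : Q k f)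
    (hg : Q k g) : Q k (fun a => D.iteNil (c a) (f a) (g a)) := by
  obtain ⟨c0, h0, -⟩ := hc
  obtain ⟨c1, h1, h2⟩ := hf
  obtain ⟨c2, h3, h4⟩ := hg
  refine Q.intro (c := c0 + c1 + c2) (c' := c1 + c2) ((h0.iteNil h1 h3).mono fun a => ?_) fun a => ?_
  · beta_reduce
    rw [add_mul, add_mul]
    cases c a <;> simp
  · have := h2 a
    have := h4 a
    rw [add_mul]
    cases c a <;> simp <;> omega

@[fun_prop] protected lemma Q.fst {f : α → β × γ} (hf : Q k f) : Q k (fun a => (f a).1) :=
  hf.enc.car.of_enc fun _ => rfl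

@[fun_prop] protected lemma Q.snd {f : α → β × γ} (hf : Q k f) : Q k (fun a => (f a).2) :=
  hf.enc.cdr.of_enc fun _ => rfl

@[fun_prop] protected lemma Q.cond {c : α → Bool} {f g : α → β} (hc : Q k c) (hf : Q k f)
    (hg : Q k g) : Q k (fun a => cond (c a) (f a) (g a)) :=
  (hc.enc.car.iteNil hg hf).congr fun a => by cases c a <;> rfl

@[fun_prop] protected lemma Q.ite {P : α → Prop} [∀ a, Decidable (P a)] {f g : α → β}
    (hP : Q k (fun a => decide (P a))) (hf : Q k f) (hg : Q k g) :
    Q k (fun a => if P a then f a else g a) :=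
  (hP.cond hf hg).congr fun a => by by_cases h : P a <;> simp [h]

@[fun_prop] protected lemma Q.not {c : α → Bool} (hc : Q k c) : Q k (fun a => !(c a)) :=
  (hc.cond (Q.const false) (Q.const true)).congr fun a => by cases c a <;> rfl

@[fun_prop] protected lemma Q.and {c d : α → Bool} (hc : Q k c) (hd : Q k d) :
    Q k (fun a => (c a && d a)) :=
  (hc.cond hd (Q.const false)).congr fun a => by cases c a <;> rfl

@[fun_prop] protected lemma Q.or {c d : α → Bool} (hc : Q k c) (hd : Q k d) :
    Q k (fun a => (c a || d a)) :=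
  (hc.cond (Q.const true) hd).congr fun a => by cases c a <;> rfl

@[fun_prop] protected lemma Q.decide_eq_true {c : α → Bool} [∀ a, Decidable (c a = true)]
    (hc : Q k c) : Q k (fun a => decide (c a = true)) := hc.congr fun a => by simp

@[fun_prop] protected lemma Q.decide_eq_false {c : α → Bool} [∀ a, Decidable (c a = false)]
    (hc : Q k c) : Q k (fun a => decide (c a = false)) := hc.not.congr fun a => by simp

@[fun_prop] protected lemma Q.decide_not {P : α → Prop} [∀ a, Decidable (P a)]
    [∀ a, Decidable (¬ P a)] (hP : Q k (fun a => decide (P a))) :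
    Q k (fun a => decide (¬ P a)) :=
  hP.not.congr fun a => by by_cases h : P a <;> simp [h]

@[fun_prop] protected lemma Q.decide_and {P R : α → Prop} [∀ a, Decidable (P a)]
    [∀ a, Decidable (R a)] [∀ a, Decidable (P a ∧ R a)] (hP : Q k (fun a => decide (P a)))
    (hQ : Q k (fun a => decide (R a))) : Q k (fun a => decide (P a ∧ R a)) :=
  (hP.and hQ).congr fun a => by by_cases h : P a <;> by_cases h' : R a <;> simp [h, h']

@[fun_prop] protected lemma Q.decide_or {P R : α → Prop} [∀ a, Decidable (P a)]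
    [∀ a, Decidable (R a)] [∀ a, Decidable (P a ∨ R a)] (hP : Q k (fun a => decide (P a)))
    (hQ : Q k (fun a => decide (R a))) : Q k (fun a => decide (P a ∨ R a)) :=
  (hP.or hQ).congr fun a => by by_cases h : P a <;> by_cases h' : R a <;> simp [h, h']

@[fun_prop] protected lemma Q.decide_imp {P R : α → Prop} [∀ a, Decidable (P a)]
    [∀ a, Decidable (R a)] [∀ a, Decidable (P a → R a)] (hP : Q k (fun a => decide (P a)))
    (hQ : Q k (fun a => decide (R a))) : Q k (fun a => decide (P a → R a)) :=
  (hP.not.or hQ).congr fun a => by by_cases h : P a <;> by_cases h' : R a <;> simp [h, h']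

/-! ### options -/

@[fun_prop] protected lemma Q.some {f : α → β} (hf : Q k f) : Q k (fun a => some (f a)) :=
  ((Q.const D.nil).dcons hf.enc).of_enc fun _ => rfl

@[fun_prop] protected lemma Q.isSome {o : α → Option β} (ho : Q k o) :
    Q k (fun a => (o a).isSome) :=
  (ho.enc.iteNil (Q.const false) (Q.const true)).congr fun a => by cases o a <;> rfl

@[fun_prop] protected lemma Q.isNone {o : α → Option β} (ho : Q k o) :
    Q k (fun a => (o a).isNone) :=
  (ho.enc.iteNil (Q.const true) (Q.const false)).congr fun a => by cases o a <;> rfl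

@[fun_prop] protected lemma Q.optionGetD {o : α → Option β} {d : α → β} (ho : Q k o) (hd : Q k d) :
    Q k (fun a => (o a).getD (d a)) :=
  (ho.enc.iteNil hd.enc ho.enc.cdr).of_enc fun a => by cases o a <;> rfl

/-- Run `g` on the data `x a` only when `c a ≠ nil`, where then `x a` encodes a value `v`. -/
protected lemma Q.guarded {c : α → D} {x : α → D} {f : α → γ} {g : α → β → γ} {r : α → γ}
    (hc : Q k c) (hx : Q k x) (hf : Q k f) (hg : Q k (fun p : α × β => g p.1 p.2))
    (h : ∀ a, (c a = .nil ∧ r a = f a) ∨ (c a ≠ .nil ∧ ∃ v, x a = enc v ∧ r a = g a v)) :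
    Q k r := by
  obtain ⟨c0, ⟨pc, hc⟩, -⟩ := hc
  obtain ⟨c1, ⟨pf, hf⟩, hf'⟩ := hf
  obtain ⟨c2, ⟨px, hx'⟩, hxs⟩ := Q.id.pair hx
  obtain ⟨c3, ⟨pg, hg⟩, hg'⟩ := hg
  refine Q.intro (c := c0 + c1 + c2 + c3 * c2 ^ (k + 1)) (c' := c1 + c3 * c2)
    ⟨.ite pc pf (.comp pg px), fun a => ?_⟩ fun a => ?_
  · obtain ⟨k0, hk, h0⟩ := hc a
    rw [enc_D] at h0
    rcases h a with ⟨h1, h2⟩ | ⟨h1, v, h2, h3⟩
    · obtain ⟨m, hm, h4⟩ := hf a
      rw [h1] at h0
      rw [h2]
      refine ⟨k0 + m, ?_, h0.iteNil h4⟩
      simp only at hk hm ⊢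
      rw [add_mul, add_mul, add_mul]
      omega
    · obtain ⟨m, hm, h4⟩ := hx' a
      obtain ⟨n, hn, h5⟩ := hg (a, v)
      have h6 : enc (a, x a) = enc (a, v) := by rw [enc_pair, enc_pair, h2]; rfl
      have h7 : sz (a, v) ≤ c2 * sz a := by
        have := hxs a
        unfold sz at this ⊢
        simp only at this
        rw [← h6]; exact this
      have h8 : sz (a, v) ^ (k + 1) ≤ (c2 * sz a) ^ (k + 1) := Nat.pow_le_pow_left h7 _
      rw [mul_pow] at h8
      have h9 := Nat.mul_le_mul_left c3 h8
      simp only at h4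
      rw [h6] at h4
      rw [h3]
      cases hca : c a with
      | nil => exact absurd hca h1
      | cons u w =>
        rw [hca] at h0
        refine ⟨k0 + (m + n), ?_, h0.iteCons (h4.comp h5)⟩
        simp only at hk hm hn ⊢
        rw [add_mul, add_mul, add_mul, mul_assoc]
        omega
  · rcases h a with ⟨h1, h2⟩ | ⟨h1, v, h2, h3⟩
    · have := hf' a
      rw [h2, add_mul]; omega
    · have h6 : enc (a, x a) = enc (a, v) := by rw [enc_pair, enc_pair, h2]; rfl
      have h7 : sz (a, v) ≤ c2 * sz a := by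
        have := hxs a
        unfold sz at this ⊢
        simp only at this
        rw [← h6]; exact this
      have h8 := hg' (a, v)
      have h9 := Nat.mul_le_mul_left c3 h7
      simp only at h8
      rw [h3, add_mul, mul_assoc]; omega

@[fun_prop] protected lemma Q.optionElim {o : α → Option β} {d : α → γ} {g : α → β → γ}
    (ho : Q k o) (hd : Q k d) (hg : Q k (fun p : α × β => g p.1 p.2)) :
    Q k (fun a => (o a).elim (d a) (g a)) :=
  Q.guarded ho.enc ho.enc.cdr hd hg fun a => by
    cases o a with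
    | none => exact Or.inl ⟨rfl, rfl⟩
    | some v => exact Or.inr ⟨by simp [enc_some], v, rfl, rfl⟩

@[fun_prop] protected lemma Q.optionMap {o : α → Option β} {g : α → β → γ} (ho : Q k o)
    (hg : Q k (fun p : α × β => g p.1 p.2)) : Q k (fun a => (o a).map (g a)) :=
  (ho.optionElim (g := fun a b => Option.some (g a b)) (Q.const none) hg.some).congr
    fun a => by cases o a <;> rfl

@[fun_prop] protected lemma Q.optionToList {o : α → Option β} (ho : Q k o) :
    Q k (fun a => (o a).toList) :=
  (ho.enc.iteNil (Q.const D.nil) (ho.enc.cdr.dcons (Q.const D.nil))).of_enc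
    fun a => by cases o a <;> rfl

/-! ### lists without loops -/

@[fun_prop] protected lemma Q.cons {x : α → β} {l : α → List β} (hx : Q k x) (hl : Q k l) :
    Q k (fun a => x a :: l a) := (hx.pair hl).of_enc fun _ => rfl

@[fun_prop] protected lemma Q.tail {l : α → List β} (hl : Q k l) : Q k (fun a => (l a).tail) :=
  hl.enc.cdr.of_enc fun a => by cases l a <;> rfl

@[fun_prop] protected lemma Q.head? {l : α → List β} (hl : Q k l) : Q k (fun a => (l a).head?) :=
  (hl.enc.iteNil (Q.const D.nil) ((Q.const D.nil).dcons hl.enc.car)).of_enc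
    fun a => by cases l a <;> rfl

@[fun_prop] protected lemma Q.headD {l : α → List β} {d : α → β} (hl : Q k l) (hd : Q k d) :
    Q k (fun a => (l a).headD (d a)) :=
  (hl.head?.optionGetD hd).congr fun a => by cases l a <;> rfl

@[fun_prop] protected lemma Q.isEmpty {l : α → List β} (hl : Q k l) :
    Q k (fun a => (l a).isEmpty) :=
  hl.head?.isNone.congr fun a => by cases l a <;> rfl

/-! ### loops -/

/-- `while` loop with an arbitrary bound `B` on rounds and states. -/
lemma while_core {f : α → σ} (step : σ → σ) (c : σ → Bool) (ini : α → σ)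
    (Inv : α → σ → Prop) (μ : σ → ℕ) (B : α → ℕ)
    (hs : Q k step) (hc : Q k c) (hi : Q (k + 1) ini)
    (hB : ∀ a, sz a ≤ B a) (hμ : ∀ a, μ (ini a) ≤ B a)
    (h0 : ∀ a, Inv a (ini a))
    (hstep : ∀ a s, Inv a s → c s = true → Inv a (step s) ∧ μ (step s) < μ s)
    (hsz : ∀ a s, Inv a s → sz s ≤ B a)
    (hout : ∀ a s, Inv a s → c s = false → s = f a) :
    ∃ C : ℕ, TimeF f (fun a => C * B a ^ (k + 2)) := by
  obtain ⟨c1, hs, -⟩ := hs
  obtain ⟨c2, hc, -⟩ := hc
  obtain ⟨c3, hi, -⟩ := hi
  refine ⟨c3 + 2 * (c2 + 5 + c1), (TimeF.of_while step c ini Inv μ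
    (fun a => (c2 + 5 + c1) * B a ^ (k + 1)) hs hc hi h0 hstep ?_ hout).mono fun a => ?_⟩
  · intro a s h
    have h1 : sz s ^ (k + 1) ≤ B a ^ (k + 1) := Nat.pow_le_pow_left (hsz a s h) _
    have h2 := Nat.mul_le_mul_left c1 h1
    have h3 := Nat.mul_le_mul_left c2 h1
    have h4 : 0 < B a ^ (k + 1) := pow_pos (lt_of_lt_of_le (sz_pos a) (hB a)) _
    beta_reduce
    rw [add_mul, add_mul]
    omega
  · have h1 : sz a ^ (k + 1 + 1) ≤ B a ^ (k + 2) := Nat.pow_le_pow_left (hB a) _
    have h2 := Nat.mul_le_mul_left c3 h1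
    have h3 : μ (ini a) + 1 ≤ 2 * B a := by
      have := hμ a
      have := lt_of_lt_of_le (sz_pos a) (hB a)
      omega
    have h4 := Nat.mul_le_mul_right ((c2 + 5 + c1) * B a ^ (k + 1)) h3
    have h5 : 2 * B a * ((c2 + 5 + c1) * B a ^ (k + 1)) = 2 * (c2 + 5 + c1) * B a ^ (k + 2) := by
      ring
    beta_reduce
    rw [add_mul c3]
    omega

/-- Hoare-style `while` loop with linear bounds. -/
protected lemma Q.of_while {f : α → β} (step : σ → σ) (c : σ → Bool) (ini : α → σ)
    (out : σ → β) (Inv : α → σ → Prop) (μ : σ → ℕ) (b : ℕ)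
    (hs : Q k step) (hc : Q k c) (hi : Q (k + 1) ini) (ho : Q (k + 1) out)
    (hμ : ∀ a, μ (ini a) ≤ b * sz a)
    (h0 : ∀ a, Inv a (ini a))
    (hstep : ∀ a s, Inv a s → c s = true → Inv a (step s) ∧ μ (step s) < μ s)
    (hsz : ∀ a s, Inv a s → sz s ≤ b * sz a)
    (hout : ∀ a s, Inv a s → c s = false → out s = f a) : Q (k + 1) f := by
  have key : ∀ a n s, Inv a s → μ s ≤ n → ∃ N, (∀ i, i < N → c (step^[i] s) = true) ∧
      c (step^[N] s) = false ∧ Inv a (step^[N] s) := by
    intro a n
    induction n with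
    | zero =>
      intro s hs hμ
      refine ⟨0, fun i hi => absurd hi (by omega), ?_, hs⟩
      by_contra h
      have := (hstep a s hs (by simpa using h)).2
      omega
    | succ n ih =>
      intro s hs hμ
      by_cases h : c s = true
      · obtain ⟨h1, h2⟩ := hstep a s hs h
        obtain ⟨N, h3, h4, h5⟩ := ih (step s) h1 (by omega)
        refine ⟨N + 1, fun i hi => ?_, h4, h5⟩
        cases i with
        | zero => exact h
        | succ i => exact h3 i (by omega)
      · exact ⟨0, fun i hi => absurd hi (by omega), by simpa using h, hs⟩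
  choose N h1 h2 h3 using fun a => key a _ (ini a) (h0 a) le_rfl
  obtain ⟨C, hC⟩ := while_core (f := fun a => step^[N a] (ini a)) step c ini
    (fun a s => Inv a s ∧ ∃ i, i ≤ N a ∧ s = step^[i] (ini a)) μ (fun a => (b + 1) * sz a) hs hc hi
    (fun a => by rw [add_mul]; omega) (fun a => by have := hμ a; rw [add_mul]; omega)
    (fun a => ⟨h0 a, 0, by omega, rfl⟩)
    (by
      rintro a s ⟨hI, i, hi, rfl⟩ hc
      refine ⟨⟨(hstep a _ hI hc).1, i + 1, ?_, (Function.iterate_succ_apply' _ _ _).symm⟩,
        (hstep a _ hI hc).2⟩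
      rcases Nat.lt_or_ge i (N a) with h | h
      · omega
      · obtain rfl : i = N a := by omega
        rw [h2 a] at hc
        exact absurd hc (by simp))
    (by
      rintro a s ⟨hI, -⟩
      have := hsz a s hI
      rw [add_mul]; omega)
    (by
      rintro a s ⟨-, i, hi, rfl⟩ hc
      rcases Nat.lt_or_ge i (N a) with h | h
      · rw [h1 a i h] at hc
        exact absurd hc (by simp)
      · obtain rfl : i = N a := by omega
        rfl)
  have hQ : Q (k + 1) (fun a => step^[N a] (ini a)) :=
    Q.intro (c := C * (b + 1) ^ (k + 2)) (c' := b)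
      (hC.mono fun a => by rw [mul_pow, mul_assoc]) fun a => hsz a _ (h3 a)
  exact (ho.comp hQ).congr fun a => (hout a _ (h3 a) (h2 a)).symm

/-- the loop state of a left fold -/
def foldStep (f : α → γ → β → γ) (s : α × List β × γ) : α × List β × γ :=
  (s.1, s.2.1.tail, s.2.1.head?.elim s.2.2 (fun x => f s.1 s.2.2 x))

lemma q_foldStep {f : α → γ → β → γ} (hf : Q k (fun p : α × γ × β => f p.1 p.2.1 p.2.2)) :
    Q k (foldStep f) := by
  have h1 : Q k (fun p : (α × List β × γ) × β => f p.1.1 p.1.2.2 p.2) :=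
    hf.comp (f := fun p : (α × List β × γ) × β => (p.1.1, p.1.2.2, p.2)) (by fun_prop)
  unfold foldStep
  fun_prop

omit [Enc α] [Enc β] [Enc γ] in
lemma foldStep_inv {f : α → γ → β → γ} (l : List β) (ini : γ) (a : α) (s : α × List β × γ)
    (h : s.1 = a ∧ ∃ i, s.2.1 = l.drop i ∧ s.2.2 = (l.take i).foldl (f a) ini)
    (hc : (!s.2.1.isEmpty) = true) :
    ((foldStep f s).1 = a ∧ ∃ i, (foldStep f s).2.1 = l.drop i ∧
      (foldStep f s).2.2 = (l.take i).foldl (f a) ini) ∧
      (foldStep f s).2.1.length < s.2.1.length := by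
  obtain ⟨a', m, acc⟩ := s
  obtain ⟨rfl, i, h2, h3⟩ := h
  simp only at h2 h3 hc
  cases m with
  | nil => simp at hc
  | cons x m =>
    have hi : i < l.length := by
      by_contra h
      rw [List.drop_of_length_le (by omega)] at h2
      simp at h2
    rw [List.drop_eq_getElem_cons hi] at h2
    simp only [List.cons.injEq] at h2
    refine ⟨⟨rfl, i + 1, by simpa [foldStep] using h2.2, ?_⟩, by simp [foldStep]⟩
    rw [List.take_succ_eq_append_getElem hi, List.foldl_append, ← h3, ← h2.1]
    simp [foldStep]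

/-- Left fold whose partial results have linear size. -/
protected lemma Q.foldl {f : α → γ → β → γ} {l : α → List β} {ini : α → γ} (b : ℕ)
    (hf : Q k (fun p : α × γ × β => f p.1 p.2.1 p.2.2)) (hl : Q (k + 1) l) (hi : Q (k + 1) ini)
    (hsz : ∀ a i, sz (((l a).take i).foldl (f a) (ini a)) ≤ b * sz a) :
    Q (k + 1) (fun a => (l a).foldl (f a) (ini a)) := by
  obtain ⟨d, -, hd⟩ := id hl
  refine Q.of_while (σ := α × List β × γ) (foldStep f)
    (fun s => !s.2.1.isEmpty) (fun a => (a, l a, ini a)) (fun s => s.2.2)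
    (fun a s => s.1 = a ∧ ∃ i, s.2.1 = (l a).drop i ∧ s.2.2 = ((l a).take i).foldl (f a) (ini a))
    (fun s => s.2.1.length) (d + b + 3) (q_foldStep hf)
    (by fun_prop) (by fun_prop) (by fun_prop) (fun a => ?_)
    (fun a => ⟨rfl, 0, by simp, by simp⟩) (fun a s h hc => foldStep_inv _ _ a s h hc) ?_ ?_
  · have := length_le_sz (l a)
    have := hd a
    simp only
    rw [add_mul, add_mul]; omega
  · rintro a ⟨a', m, acc⟩ ⟨rfl, i, h2, h3⟩
    simp only at h2 h3
    have := sz_drop_le i (l a')
    have := hsz a' i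
    have := hd a'
    have := sz_pos a'
    subst h2 h3
    simp only [sz_pair]
    rw [add_mul, add_mul]
    omega
  · rintro a ⟨a', m, acc⟩ ⟨rfl, i, h2, h3⟩ hc
    simp only at h2 h3 hc
    have : m = [] := by simpa using hc
    subst this
    rw [h3, List.take_of_length_le (List.drop_eq_nil_iff.1 h2.symm)]

/-- Left fold with an invariant bounding the size of the accumulator. -/
protected lemma Q.foldl_inv {f : α → γ → β → γ} {l : α → List β} {ini : α → γ}
    (Inv : α → γ → Prop) (b : ℕ)
    (hf : Q k (fun p : α × γ × β => f p.1 p.2.1 p.2.2)) (hl : Q (k + 1) l) (hi : Q (k + 1) ini)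
    (h0 : ∀ a, Inv a (ini a)) (hstep : ∀ a acc, ∀ x ∈ l a, Inv a acc → Inv a (f a acc x))
    (hsz : ∀ a acc, Inv a acc → sz acc ≤ b * sz a) :
    Q (k + 1) (fun a => (l a).foldl (f a) (ini a)) := by
  refine Q.foldl b hf hl hi fun a i => hsz a _ ?_
  have : ∀ (m : List β) (acc : γ), (∀ x ∈ m, x ∈ l a) → Inv a acc → Inv a (m.foldl (f a) acc) := by
    intro m
    induction m with
    | nil => intro acc _ h; exact h
    | cons x m ih =>
      intro acc hm h
      exact ih _ (fun y hy => hm y (by simp [hy])) (hstep a acc x (hm x (by simp)) h)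
  exact this _ _ (fun x hx => List.mem_of_mem_take hx) (h0 a)

/-- Left fold in which each round increases the size of the accumulator by at most
`e * (sz x + 1)`. -/
protected lemma Q.foldl_add {f : α → γ → β → γ} {l : α → List β} {ini : α → γ} (e : ℕ)
    (hf : Q k (fun p : α × γ × β => f p.1 p.2.1 p.2.2)) (hl : Q (k + 1) l) (hi : Q (k + 1) ini)
    (h : ∀ a acc, ∀ x ∈ l a, sz (f a acc x) ≤ sz acc + e * (sz x + 1)) :
    Q (k + 1) (fun a => (l a).foldl (f a) (ini a)) := by
  obtain ⟨d, -, hd⟩ := id hl
  obtain ⟨d', -, hd'⟩ := id hi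
  refine Q.foldl (d' + e * d) hf hl hi fun a i => ?_
  have : ∀ (m : List β) (acc : γ), (∀ x ∈ m, x ∈ l a) →
      sz (m.foldl (f a) acc) + e ≤ sz acc + e * sz m := by
    intro m
    induction m with
    | nil => intro acc _; simp
    | cons x m ih =>
      intro acc hm
      have h1 := ih (f a acc x) (fun y hy => hm y (by simp [hy]))
      have h2 := h a acc x (hm x (by simp))
      simp only [List.foldl_cons, sz_cons]
      have : e * (sz x + sz m + 1) = e * (sz x + 1) + e * sz m := by ring
      omega
  have h1 := this _ (ini a) (fun x hx => List.mem_of_mem_take (i := i) hx)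
  have h2 := Nat.mul_le_mul_left e ((sz_take_le i (l a)).trans (hd a))
  have h3 := hd' a
  rw [add_mul, mul_assoc]
  omega

@[fun_prop] protected lemma Q.reverse {l : α → List β} (hl : Q (k + 1) l) :
    Q (k + 1) (fun a => (l a).reverse) := by
  have := Q.foldl_add (k := k) (f := fun (_ : α) (acc : List β) (x : β) => x :: acc) (l := l)
    (ini := fun _ => []) 1 (by fun_prop) hl (by fun_prop) (fun a acc x _ => by simp; omega)
  exact this.congr fun a => by simp

@[fun_prop] protected lemma Q.append {l m : α → List β} (hl : Q (k + 1) l) (hm : Q (k + 1) m) :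
    Q (k + 1) (fun a => l a ++ m a) := by
  have := Q.foldl_add (k := k) (f := fun (_ : α) (acc : List β) (x : β) => x :: acc)
    (l := fun a => (l a).reverse) (ini := m) 1 (by fun_prop) hl.reverse hm
    (fun a acc x _ => by simp; omega)
  exact this.congr fun a => by simp

@[fun_prop] protected lemma Q.filter {l : α → List β} {g : α → β → Bool} (hl : Q (k + 1) l)
    (hg : Q k (fun p : α × β => g p.1 p.2)) : Q (k + 1) (fun a => (l a).filter (g a)) := by
  have h1 : Q k (fun p : α × List β × β => g p.1 p.2.2) :=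
    hg.comp (f := fun p : α × List β × β => (p.1, p.2.2)) (by fun_prop)
  have := Q.foldl_add (k := k)
    (f := fun (a : α) (acc : List β) (x : β) => cond (g a x) (x :: acc) acc)
    (l := fun a => (l a).reverse) (ini := fun _ => []) 1 (by fun_prop) hl.reverse (by fun_prop)
    (fun a acc x _ => by cases g a x <;> simp; omega)
  refine this.congr fun a => ?_
  rw [List.foldl_reverse]
  induction l a with
  | nil => simp
  | cons x m ih => cases h : g a x <;> simp [h, ih]

@[fun_prop] protected lemma Q.all {l : α → List β} {g : α → β → Bool} (hl : Q (k + 1) l)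
    (hg : Q k (fun p : α × β => g p.1 p.2)) : Q (k + 1) (fun a => (l a).all (g a)) :=
  (hl.filter (g := fun a x => !g a x) (by fun_prop)).isEmpty.congr fun a => by
    induction l a with
    | nil => simp
    | cons x m ih => cases h : g a x <;> simp [h, ih]

@[fun_prop] protected lemma Q.any {l : α → List β} {g : α → β → Bool} (hl : Q (k + 1) l)
    (hg : Q k (fun p : α × β => g p.1 p.2)) : Q (k + 1) (fun a => (l a).any (g a)) :=
  (hl.filter hg).isEmpty.not.congr fun a => by
    induction l a with
    | nil => simp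
    | cons x m ih => cases h : g a x <;> simp [h, ih]

@[fun_prop] protected lemma Q.find? {l : α → List β} {g : α → β → Bool} (hl : Q (k + 1) l)
    (hg : Q k (fun p : α × β => g p.1 p.2)) : Q (k + 1) (fun a => (l a).find? (g a)) :=
  (hl.filter hg).head?.congr fun a => by simp

/-! ### equality -/

/-- one round of the comparison of two trees -/
def eqStep (s : List (D × D) × Bool) : List (D × D) × Bool :=
  s.1.head?.elim s (fun q =>
    D.iteNil q.1 (D.iteNil q.2 (s.1.tail, s.2) (s.1.tail, false))
      (D.iteNil q.2 (s.1.tail, false) ((q.1.car, q.2.car) :: (q.1.cdr, q.2.cdr) :: s.1.tail, s.2)))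

lemma q_eqD : Q (k + 1) (fun p : D × D => decide (p.1 = p.2)) := by
  refine Q.of_while (σ := List (D × D) × Bool) eqStep (fun s => !s.1.isEmpty)
    (fun p => ([p], true)) (fun s => s.2)
    (fun p s => ((s.2 = true ∧ ∀ q ∈ s.1, q.1 = q.2) ↔ p.1 = p.2) ∧
      (s.1.map (fun q => sz q.1 + sz q.2)).sum ≤ sz p)
    (fun s => (s.1.map (fun q => sz q.1 + sz q.2)).sum) 10
    (by unfold eqStep; fun_prop) (by fun_prop) (by fun_prop) (by fun_prop)
    (fun p => by simp [sz_prod p]; omega)
    (fun p => ⟨by simp, by simp [sz_prod p]⟩) ?_ ?_ ?_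
  · rintro p ⟨st, ok⟩ ⟨h1, h2⟩ hc
    cases st with
    | nil => simp at hc
    | cons q st =>
      obtain ⟨u, v⟩ := q
      have hu := u.size_pos
      have hv := v.size_pos
      simp only [List.map_cons, List.sum_cons, List.mem_cons, forall_eq_or_imp, sz_D] at h1 h2 ⊢
      rw [← h1]
      cases u <;> cases v <;> simp [eqStep] at h2 ⊢ <;> (try omega)
      refine ⟨⟨by tauto, by omega⟩, by omega⟩
  · rintro p ⟨st, ok⟩ ⟨-, h2⟩
    have : ∀ l : List (D × D), sz l ≤ 3 * (l.map (fun q => sz q.1 + sz q.2)).sum + 1 := by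
      intro l
      induction l with
      | nil => simp
      | cons q l ih =>
        have := sz_pos q.1
        simp only [sz_cons, List.map_cons, List.sum_cons, sz_prod q]
        omega
    have := this st
    have := sz_pos p
    simp only [sz_pair, sz_bool] at h2 ⊢
    omega
  · rintro p ⟨st, ok⟩ ⟨h1, -⟩ hc
    have : st = [] := by simpa using hc
    subst this
    rw [Bool.eq_iff_iff]
    simpa using h1

@[fun_prop] protected lemma Q.decide_eq {f g : α → β} [∀ a, Decidable (f a = g a)]
    (hf : Q (k + 1) f) (hg : Q (k + 1) g) : Q (k + 1) (fun a => decide (f a = g a)) :=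
  (q_eqD.comp (hf.enc.pair hg.enc)).congr fun a => by
    simp only [Enc.inj.eq_iff]

@[fun_prop] protected lemma Q.decide_mem {x : α → β} {l : α → List β}
    [∀ a, Decidable (x a ∈ l a)] (hx : Q (k + 2) x) (hl : Q (k + 2) l) :
    Q (k + 2) (fun a => decide (x a ∈ l a)) := by
  classical
  have h : Q (k + 2) (fun p : β × List β => p.2.any (fun y => decide (y = p.1))) := by fun_prop
  exact (h.comp (hx.pair hl)).congr fun a => by
    rw [Bool.eq_iff_iff]; simp

/-! ### clamping -/

/-- one round of the size test -/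
def szStep (s : List D × List Unit) : List D × List Unit :=
  s.1.head?.elim s (fun d => (D.iteNil d s.1.tail (d.car :: d.cdr :: s.1.tail), s.2.tail))

lemma q_szLe : Q (k + 1) (fun p : D × List Unit => decide (p.1.size ≤ p.2.length)) := by
  refine Q.of_while (σ := List D × List Unit) szStep (fun s => !s.1.isEmpty && !s.2.isEmpty)
    (fun p => ([p.1], p.2)) (fun s => s.1.isEmpty)
    (fun p s => (s.1.map D.size).sum + p.2.length = p.1.size + s.2.length ∧
      s.2.length ≤ p.2.length)
    (fun s => s.2.length) 10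
    (by unfold szStep; fun_prop) (by fun_prop) (by fun_prop) (by fun_prop)
    (fun p => by have := length_le_sz p.2; have := sz_snd_le p; simp only; omega)
    (fun p => ⟨by simp, le_rfl⟩) ?_ ?_ ?_
  · rintro p ⟨st, u⟩ ⟨h1, h2⟩ hc
    cases st with
    | nil => simp at hc
    | cons d st =>
      cases u with
      | nil => simp at hc
      | cons x u => cases d <;> simp [szStep] at h1 h2 ⊢ <;> omega
  · rintro ⟨d, u0⟩ ⟨st, u⟩ ⟨h1, h2⟩
    have : ∀ l : List D, sz l ≤ 2 * (l.map D.size).sum + 1 := by
      intro l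
      induction l with
      | nil => simp
      | cons q l ih =>
        have := q.size_pos
        simp only [sz_cons, List.map_cons, List.sum_cons, sz_D]
        omega
    have := this st
    have := d.size_pos
    simp only [sz_pair, sz_unitList, sz_D] at h1 h2 ⊢
    omega
  · rintro p ⟨st, u⟩ ⟨h1, h2⟩ hc
    cases st with
    | nil => simp at h1 ⊢; omega
    | cons d st =>
      have := d.size_pos
      have hu : u = [] := by simpa using hc
      subst hu
      simp at h1 ⊢; omega

/-- `x` if its size is at most the length of the pad, `d` otherwise -/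
def clamp (pad : List Unit) (d x : β) : β := if sz x ≤ pad.length then x else d

lemma clamp_eq {pad : List Unit} {d x : β} (h : sz x ≤ pad.length) : clamp pad d x = x := by
  simp [clamp, h]

@[fun_prop] protected lemma Q.clamp {pad : α → List Unit} {d x : α → β} (hp : Q (k + 1) pad)
    (hd : Q (k + 1) d) (hx : Q (k + 1) x) : Q (k + 1) (fun a => clamp (pad a) (d a) (x a)) := by
  have h : Q (k + 1) (fun a => decide (sz (x a) ≤ (pad a).length)) :=
    (q_szLe.comp (hx.enc.pair hp)).congr fun a => rfl
  unfold clamp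
  fun_prop

/-- left fold with clamped accumulator -/
def foldC (pad : List Unit) (f : γ → β → γ) (ini : γ) (l : List β) : γ :=
  l.foldl (fun s x => clamp pad s (f s x)) ini

@[fun_prop] protected lemma Q.foldC {pad : α → List Unit} {f : α → γ → β → γ} {l : α → List β}
    {ini : α → γ} (hp : Q (k + 2) pad)
    (hf : Q (k + 1) (fun p : α × γ × β => f p.1 p.2.1 p.2.2)) (hi : Q (k + 2) ini)
    (hl : Q (k + 2) l) : Q (k + 2) (fun a => foldC (pad a) (f a) (ini a) (l a)) := by
  have h1 : Q (k + 1) (fun p : (α × List Unit × γ) × γ × β => f p.1.1 p.2.1 p.2.2) :=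
    hf.comp (f := fun p : (α × List Unit × γ) × γ × β => (p.1.1, p.2.1, p.2.2)) (by fun_prop)
  have h2 : Q (k + 2) (fun q : (α × List Unit × γ) × List β =>
      q.2.foldl (fun s x => clamp q.1.2.1 s (f q.1.1 s x)) q.1.2.2) := by
    have h3 : Q (k + 1) (fun p : ((α × List Unit × γ) × List β) × γ × β => f p.1.1.1 p.2.1 p.2.2) :=
      hf.comp (f := fun p : ((α × List Unit × γ) × List β) × γ × β => (p.1.1.1, p.2.1, p.2.2))
        (by fun_prop)
    refine Q.foldl_inv (k := k + 1)
      (f := fun (q : (α × List Unit × γ) × List β) s x => clamp q.1.2.1 s (f q.1.1 s x))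
      (fun q s => sz s ≤ sz q) 1 (by fun_prop) (by fun_prop) (by fun_prop) ?_ ?_ ?_
    · rintro ⟨⟨a, p, i⟩, l⟩
      simp only [sz_pair]; omega
    · rintro ⟨⟨a, p, i⟩, l⟩ s x _ h
      unfold clamp
      split_ifs with h'
      · have := length_le_sz p
        simp only [sz_pair] at h' ⊢; omega
      · exact h
    · intro q s h; omega
  exact h2.comp (f := fun a => ((a, pad a, ini a), l a)) (by fun_prop)

omit [Enc β] in
/-- The clamp is invisible if all partial results are small. -/
lemma foldC_eq {pad : List Unit} {f : γ → β → γ} {ini : γ} {l : List β}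
    (h : ∀ i, sz ((l.take i).foldl f ini) ≤ pad.length) : foldC pad f ini l = l.foldl f ini := by
  unfold foldC
  induction l generalizing ini with
  | nil => rfl
  | cons x l ih =>
    have h1 := h 1
    simp only [List.take_succ_cons, List.take_zero, List.foldl_cons, List.foldl_nil] at h1
    simp only [List.foldl_cons, clamp_eq h1]
    exact ih fun i => by simpa using h (i + 1)

/-- clamped `flatMap` -/
def flatMapC (pad : List Unit) (g : β → List γ) (l : List β) : List γ :=
  foldC pad (fun acc x => acc ++ g x) [] l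

@[fun_prop] protected lemma Q.flatMapC {pad : α → List Unit} {g : α → β → List γ}
    {l : α → List β} (hp : Q (k + 2) pad) (hg : Q (k + 1) (fun p : α × β => g p.1 p.2))
    (hl : Q (k + 2) l) : Q (k + 2) (fun a => flatMapC (pad a) (g a) (l a)) := by
  have h1 : Q (k + 1) (fun p : α × List γ × β => g p.1 p.2.2) :=
    hg.comp (f := fun p : α × List γ × β => (p.1, p.2.2)) (by fun_prop)
  unfold flatMapC
  fun_prop

omit [Enc β] in
lemma flatMapC_eq {pad : List Unit} {g : β → List γ} {l : List β}
    (h : sz (l.flatMap g) ≤ pad.length) : flatMapC pad g l = l.flatMap g := by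
  have key : ∀ (m : List β) (acc : List γ),
      m.foldl (fun acc x => acc ++ g x) acc = acc ++ m.flatMap g := by
    intro m
    induction m with
    | nil => simp
    | cons x m ih => intro acc; simp [ih]
  unfold flatMapC
  rw [foldC_eq, key, List.nil_append]
  intro i
  rw [key, List.nil_append]
  refine le_trans (sz_sublist_le ?_) h
  conv_rhs => rw [← List.take_append_drop i l, List.flatMap_append]
  exact List.sublist_append_left _ _

/-- clamped `map` -/
def mapC (pad : List Unit) (g : β → γ) (l : List β) : List γ := flatMapC pad (fun x => [g x]) l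

@[fun_prop] protected lemma Q.mapC {pad : α → List Unit} {g : α → β → γ}
    {l : α → List β} (hp : Q (k + 2) pad) (hg : Q (k + 1) (fun p : α × β => g p.1 p.2))
    (hl : Q (k + 2) l) : Q (k + 2) (fun a => mapC (pad a) (g a) (l a)) := by
  unfold mapC
  fun_prop

omit [Enc β] in
lemma mapC_eq {pad : List Unit} {g : β → γ} {l : List β}
    (h : sz (l.map g) ≤ pad.length) : mapC pad g l = l.map g := by
  have : l.flatMap (fun x => [g x]) = l.map g := by
    clear h
    induction l with
    | nil => rfl
    | cons x l ih => simp [ih]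
  unfold mapC
  rw [flatMapC_eq (by rw [this]; exact h), this]

end Crest.Agent.R286
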