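import Crest.Agent.R286.Q
import Crest.Prelude.Def_BitEnc

/-!
Row 286, machine side: more closure properties of `Q` (natural numbers are written in unary),
and the padding of the input.
-/

set_option autoImplicit false
set_option linter.dupNamespace false

namespace Crest.Agent.R286

open Crest.Agent.Lib.PT

/-- unary encoding of the naturals -/
@[reducible] def encU : Enc ℕ :=
  Enc.ofInj (fun n => List.replicate n ()) (fun a b h => by simpa using congrArg List.length h)

scoped instance (priority := high) instEncU : Enc ℕ := encU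

variable {α β γ δ σ : Type} [Enc α] [Enc β] [Enc γ] [Enc δ] [Enc σ] {k : ℕ}

lemma szU (n : ℕ) : sz n = 2 * n + 1 := by
  have : sz n = sz (List.replicate n ()) := rfl
  rw [this, sz_unitList, List.length_replicate]

lemma unit_eq_replicate (l : List Unit) : l = List.replicate l.length () :=
  List.eq_replicate_iff.2 ⟨rfl, fun _ _ => rfl⟩

@[fun_prop] protected lemma Q.toU {n : α → ℕ} (hn : Q k n) :
    Q k (fun a => List.replicate (n a) ()) := hn.of_enc fun _ => rfl

protected lemma Q.ofU {l : α → List Unit} (hl : Q k l) : Q k (fun a => (l a).length) :=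
  hl.of_enc fun a => by
    conv_rhs => rw [unit_eq_replicate (l a)]
    rfl

@[fun_prop] protected lemma Q.succ {n : α → ℕ} (hn : Q k n) : Q k (fun a => n a + 1) :=
  (Q.ofU ((Q.const ()).cons hn.toU)).congr fun a => by simp

protected lemma Q.pred {n : α → ℕ} (hn : Q k n) : Q k (fun a => n a - 1) :=
  (Q.ofU hn.toU.tail).congr fun a => by simp

protected lemma Q.isZero {n : α → ℕ} [∀ a, Decidable (n a = 0)] (hn : Q k n) :
    Q k (fun a => decide (n a = 0)) :=
  hn.toU.isEmpty.congr fun a => by rw [Bool.eq_iff_iff]; simp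

/-- `map` with a function that does not depend on the input -/
@[fun_prop] protected lemma Q.map0 {l : α → List β} {g : β → γ} (hl : Q (k + 1) l) (hg : Q k g) :
    Q (k + 1) (fun a => (l a).map g) := by
  obtain ⟨c, -, hc⟩ := id hg
  have := Q.foldl_add (k := k) (f := fun (_ : α) (acc : List γ) (x : β) => g x :: acc)
    (l := fun a => (l a).reverse) (ini := fun _ => []) (c + 1) (by fun_prop) hl.reverse
    (by fun_prop) (fun a acc x _ => by
      have := hc x
      simp only [sz_cons]
      have : (c + 1) * (sz x + 1) = c * sz x + c + sz x + 1 := by ring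
      omega)
  refine this.congr fun a => ?_
  rw [List.foldl_reverse]
  induction l a with
  | nil => simp
  | cons x m ih => rw [List.foldr_cons, List.map_cons, ih]

@[fun_prop] protected lemma Q.length {l : α → List β} (hl : Q (k + 1) l) :
    Q (k + 1) (fun a => (l a).length) :=
  (Q.ofU (hl.map0 (g := fun _ => ()) (Q.const ()))).congr fun a => by simp

@[fun_prop] protected lemma Q.flatten {l : α → List (List β)} (hl : Q (k + 2) l) :
    Q (k + 2) (fun a => (l a).flatten) := by
  have := Q.foldl_add (k := k + 1) (f := fun (_ : α) (acc : List β) (x : List β) => x ++ acc)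
    (l := fun a => (l a).reverse) (ini := fun _ => []) 1 (by fun_prop) hl.reverse
    (by fun_prop) (fun a acc x _ => by
      have := sz_append x acc
      omega)
  refine this.congr fun a => ?_
  rw [List.foldl_reverse]
  induction l a with
  | nil => simp
  | cons x m ih => simp [ih]

lemma q_lt : Q (k + 1) (fun p : ℕ × ℕ => decide (p.1 < p.2)) := by
  have hp1 : Q k (fun s : ℕ × ℕ => s.1 - 1) := Q.pred (by fun_prop)
  have hp2 : Q k (fun s : ℕ × ℕ => s.2 - 1) := Q.pred (by fun_prop)
  have hz1 : Q k (fun s : ℕ × ℕ => decide (s.1 = 0)) := Q.isZero (by fun_prop)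
  have hz2 : Q k (fun s : ℕ × ℕ => decide (s.2 = 0)) := Q.isZero (by fun_prop)
  have hz3 : Q (k + 1) (fun s : ℕ × ℕ => decide (s.2 = 0)) := Q.isZero (by fun_prop)
  refine Q.of_while (σ := ℕ × ℕ) (fun s => (s.1 - 1, s.2 - 1))
    (fun s => !decide (s.1 = 0) && !decide (s.2 = 0)) (fun p => p) (fun s => !decide (s.2 = 0))
    (fun p s => (s.1 < s.2 ↔ p.1 < p.2) ∧ s.1 ≤ p.1 ∧ s.2 ≤ p.2) (fun s => s.1) 1
    (hp1.pair hp2) (hz1.not.and hz2.not) (by fun_prop) hz3.not
    (fun p => by rw [sz_prod, szU, szU]; omega) (fun p => ⟨Iff.rfl, le_rfl, le_rfl⟩) ?_ ?_ ?_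
  · rintro p s ⟨h1, h2, h3⟩ hc
    simp only [Bool.and_eq_true, Bool.not_eq_true', decide_eq_false_iff_not] at hc
    simp only
    omega
  · rintro p s ⟨h1, h2, h3⟩
    rw [sz_prod, sz_prod p, szU, szU, szU, szU]; omega
  · rintro p s ⟨h1, h2, h3⟩ hc
    rw [Bool.eq_iff_iff]
    simp only [Bool.and_eq_false_iff, Bool.not_eq_false', decide_eq_true_eq] at hc
    simp only [Bool.not_eq_true', decide_eq_false_iff_not, decide_eq_true_eq]
    omega

@[fun_prop] protected lemma Q.decide_lt {m n : α → ℕ} [∀ a, Decidable (m a < n a)]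
    (hm : Q (k + 1) m) (hn : Q (k + 1) n) : Q (k + 1) (fun a => decide (m a < n a)) :=
  (q_lt.comp (hm.pair hn)).congr fun a => by simp

@[fun_prop] protected lemma Q.beq [BEq β] [LawfulBEq β] {f g : α → β}
    (hf : Q (k + 1) f) (hg : Q (k + 1) g) : Q (k + 1) (fun a => f a == g a) := by
  classical
  exact (hf.decide_eq hg).congr fun a => by rw [Bool.eq_iff_iff]; simp

@[fun_prop] protected lemma Q.bne [BEq β] [LawfulBEq β] {f g : α → β}
    (hf : Q (k + 1) f) (hg : Q (k + 1) g) : Q (k + 1) (fun a => f a != g a) :=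
  (hf.beq hg).not.congr fun a => rfl

@[fun_prop] protected lemma Q.contains [BEq β] [LawfulBEq β] {l : α → List β} {x : α → β}
    (hl : Q (k + 2) l) (hx : Q (k + 2) x) : Q (k + 2) (fun a => (l a).contains (x a)) := by
  classical
  exact (hx.decide_mem hl).congr fun a => by rw [Bool.eq_iff_iff]; simp

@[fun_prop] protected lemma Q.findSome? {l : α → List β} {g : α → β → Option γ}
    (hl : Q (k + 1) l) (hg : Q k (fun p : α × β => g p.1 p.2)) :
    Q (k + 1) (fun a => (l a).findSome? (g a)) := by
  have h1 : Q (k + 1) (fun a => (l a).find? (fun x => (g a x).isSome)) :=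
    hl.find? (g := fun a x => (g a x).isSome) hg.isSome
  refine (h1.optionElim (d := fun _ => none) (g := g) (Q.const none)
    (hg.mono (by omega))).congr fun a => ?_
  induction l a with
  | nil => simp
  | cons x m ih =>
    cases h : g a x with
    | none => simp [List.findSome?_cons, List.find?_cons, h, ih]
    | some v => simp [List.findSome?_cons, List.find?_cons, h]

@[fun_prop] protected lemma Q.findIdx {l : α → List β} {g : α → β → Bool}
    (hl : Q (k + 1) l) (hg : Q k (fun p : α × β => g p.1 p.2)) :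
    Q (k + 1) (fun a => (l a).findIdx (g a)) := by
  have h1 : Q k (fun p : α × ℕ × β => g p.1 p.2.2) :=
    hg.comp (f := fun p : α × ℕ × β => (p.1, p.2.2)) (by fun_prop)
  have := Q.foldl_add (k := k)
    (f := fun (a : α) (acc : ℕ) (x : β) => cond (g a x) 0 (acc + 1))
    (l := fun a => (l a).reverse) (ini := fun _ => 0) 2 (by fun_prop) hl.reverse (by fun_prop)
    (fun a acc x _ => by cases g a x <;> simp [szU] <;> omega)
  refine this.congr fun a => ?_
  rw [List.foldl_reverse]
  induction l a with
  | nil => simp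
  | cons x m ih => simp [List.findIdx_cons, ih]

/-- one round of `zip` -/
def zipStep (s : List γ × List (β × γ)) (x : β) : List γ × List (β × γ) :=
  s.1.head?.elim s (fun y => (s.1.tail, (x, y) :: s.2))

omit [Enc β] [Enc γ] in
lemma foldl_zipStep (l : List β) (m : List γ) (acc : List (β × γ)) :
    (l.foldl zipStep (m, acc)).2.reverse = acc.reverse ++ l.zip m := by
  induction l generalizing m acc with
  | nil => simp
  | cons x l ih =>
    cases m with
    | nil =>
      have := ih [] acc
      simpa [zipStep] using this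
    | cons y m =>
      have := ih m ((x, y) :: acc)
      simpa [zipStep] using this

@[fun_prop] protected lemma Q.zip {l : α → List β} {m : α → List γ}
    (hl : Q (k + 1) l) (hm : Q (k + 1) m) : Q (k + 1) (fun a => (l a).zip (m a)) := by
  have := Q.foldl_add (k := k)
    (f := fun (_ : α) (s : List γ × List (β × γ)) (x : β) => zipStep s x)
    (l := l) (ini := fun a => (m a, [])) 1 (by unfold zipStep; fun_prop) hl (by fun_prop)
    (by
      rintro a ⟨u, acc⟩ x -
      cases u <;> simp [zipStep]
      omega)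
  exact this.snd.reverse.congr fun a => by rw [foldl_zipStep]; simp

@[fun_prop] protected lemma Q.foldTail {l : α → List β} {x : α → List γ}
    (hl : Q (k + 1) l) (hx : Q (k + 1) x) :
    Q (k + 1) (fun a => (l a).foldl (fun y _ => y.tail) (x a)) :=
  Q.foldl_add (k := k) (f := fun (_ : α) (y : List γ) (_ : β) => y.tail) 0 (by fun_prop) hl hx
    (fun a acc x _ => by have := sz_tail_le acc; omega)

/-! ### binary output -/

lemma q_half : Q (k + 1) (fun n : ℕ => (n / 2, n % 2)) := by
  have hp1 : Q k (fun s : ℕ × ℕ => s.2 - 1) := Q.pred (by fun_prop)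
  have hp2 : Q k (fun s : ℕ × ℕ => s.2 - 1 - 1) := Q.pred hp1
  have hz : Q k (fun s : ℕ × ℕ => decide (s.2 - 1 = 0)) := Q.isZero hp1
  refine Q.of_while (σ := ℕ × ℕ) (fun s => (s.1 + 1, s.2 - 1 - 1))
    (fun s => !decide (s.2 - 1 = 0)) (fun n => (0, n)) (fun s => s)
    (fun n s => 2 * s.1 + s.2 = n) (fun s => s.2) 3
    (Q.pair (by fun_prop) hp2) hz.not (by fun_prop) (by fun_prop)
    (fun p => by rw [szU]; simp only; omega) (fun p => by simp) ?_ ?_ ?_
  · rintro p s h hc
    simp only [Bool.not_eq_true', decide_eq_false_iff_not] at hc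
    simp only
    omega
  · rintro p s h
    rw [sz_prod, szU, szU, szU]; omega
  · rintro p ⟨u, v⟩ h hc
    simp only [Bool.not_eq_false', decide_eq_true_eq] at hc
    simp only [Prod.mk.injEq] at h ⊢
    omega

lemma bits_pos {n : ℕ} (hn : n ≠ 0) : n.bits = (!decide (n % 2 = 0)) :: (n / 2).bits := by
  rcases Nat.even_or_odd' n with ⟨m, rfl | rfl⟩
  · rw [Nat.bit0_bits m (by omega)]
    simp
  · rw [Nat.bit1_bits m]
    have h1 : (2 * m + 1) / 2 = m := by omega
    have h2 : (2 * m + 1) % 2 = 1 := by omega
    simp [h1, h2]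

lemma q_bits : Q (k + 2) (fun n : ℕ => n.bits) := by
  have hh : Q (k + 1) (fun s : ℕ × List Bool => (s.1 / 2, s.1 % 2)) :=
    q_half.comp (f := fun s : ℕ × List Bool => s.1) (by fun_prop)
  have hz : Q (k + 1) (fun s : ℕ × List Bool => decide (s.1 = 0)) := Q.isZero (by fun_prop)
  have hz2 : Q (k + 1) (fun s : ℕ × List Bool => decide (s.1 % 2 = 0)) := Q.isZero hh.snd
  refine Q.of_while (σ := ℕ × List Bool) (fun s => (s.1 / 2, (!decide (s.1 % 2 = 0)) :: s.2))
    (fun s => !decide (s.1 = 0)) (fun n => (n, [])) (fun s => s.2.reverse)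
    (fun n s => s.2.reverse ++ s.1.bits = n.bits ∧ s.2.length + s.1 ≤ n) (fun s => s.1) 5
    (Q.pair hh.fst (Q.cons hz2.not (by fun_prop))) hz.not (by fun_prop) (by fun_prop)
    (fun p => by rw [szU]; simp only; omega) (fun p => by simp) ?_ ?_ ?_
  · rintro p s ⟨h1, h2⟩ hc
    simp only [Bool.not_eq_true', decide_eq_false_iff_not] at hc
    refine ⟨⟨?_, ?_⟩, ?_⟩
    · rw [← h1, bits_pos hc]; simp
    · simp only [List.length_cons]; omega
    · simp only; omega
  · rintro p s ⟨h1, h2⟩
    rw [sz_prod, szU, szU, sz_boolList]; omega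
  · rintro p s ⟨h1, h2⟩ hc
    simp only [Bool.not_eq_false', decide_eq_true_eq] at hc
    rw [← h1, hc]; simp

@[fun_prop] protected lemma Q.natCode {n : α → ℕ} (hn : Q (k + 2) n) :
    Q (k + 2) (fun a => Crest.Enc.natCode (n a)) := by
  have h1 : Q (k + 2) (fun a => (n a).bits) := q_bits.comp hn
  unfold Crest.Enc.natCode
  fun_prop

@[fun_prop] protected lemma Q.listCode {l : α → List ℕ} (hl : Q (k + 3) l) :
    Q (k + 3) (fun a => Crest.Enc.listCode (l a)) := by
  have h1 : Q (k + 2) (fun n : ℕ => Crest.Enc.natCode n) := by fun_prop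
  have h2 : Q (k + 3) (fun a => (l a).map Crest.Enc.natCode) := hl.map0 h1
  unfold Crest.Enc.listCode
  fun_prop

/-! ### clamped `range` and `product` -/

/-- clamped `range` -/
def rangeC (pad : List Unit) (n : ℕ) : List ℕ :=
  foldC pad (fun acc _ => acc ++ [acc.length]) [] (List.replicate n ())

@[fun_prop] protected lemma Q.rangeC {pad : α → List Unit} {n : α → ℕ} (hp : Q (k + 2) pad)
    (hn : Q (k + 2) n) : Q (k + 2) (fun a => rangeC (pad a) (n a)) := by
  unfold rangeC
  fun_prop

lemma rangeC_eq {pad : List Unit} {n : ℕ} (h : sz (List.range n) ≤ pad.length) :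
    rangeC pad n = List.range n := by
  have key : ∀ m : ℕ, (List.replicate m ()).foldl (fun (acc : List ℕ) _ => acc ++ [acc.length]) []
      = List.range m := by
    intro m
    induction m with
    | zero => rfl
    | succ m ih => rw [List.replicate_succ', List.foldl_append, ih, List.range_succ]; simp
  unfold rangeC
  rw [foldC_eq, key]
  intro i
  rw [List.take_replicate, key]
  exact le_trans (sz_sublist_le (List.range_sublist.2 (min_le_right _ _))) h

/-- clamped `product` -/
def productC (pad : List Unit) (l : List β) (m : List γ) : List (β × γ) :=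
  flatMapC pad (fun x => mapC pad (fun y => (x, y)) m) l

@[fun_prop] protected lemma Q.productC {pad : α → List Unit} {l : α → List β} {m : α → List γ}
    (hp : Q (k + 3) pad) (hl : Q (k + 3) l) (hm : Q (k + 3) m) :
    Q (k + 3) (fun a => productC (pad a) (l a) (m a)) := by
  have h : Q (k + 3) (fun p : List Unit × List β × List γ => productC p.1 p.2.1 p.2.2) := by
    unfold productC
    fun_prop
  exact h.comp (f := fun a => (pad a, l a, m a)) (by fun_prop)

lemma productC_eq {pad : List Unit} {l : List β} {m : List γ}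
    (h : sz (l.product m) ≤ pad.length) : productC pad l m = l.product m := by
  have h1 : ∀ x ∈ l, mapC pad (fun y => (x, y)) m = m.map (Prod.mk x) := by
    intro x hx
    refine mapC_eq (le_trans (sz_sublist_le ?_) h)
    exact List.sublist_flatten_of_mem (List.mem_map_of_mem (f := fun x => m.map (Prod.mk x)) hx)
  have h2 : l.flatMap (fun x => mapC pad (fun y => (x, y)) m) = l.product m :=
    List.flatMap_congr h1
  unfold productC
  rw [flatMapC_eq (by rw [h2]; exact h), h2]

/-! ### padding -/

/-- time `O(sz^d)`, output size `O(sz^e)` -/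
def TP {α β : Type} [Enc α] [Enc β] (d e : ℕ) (f : α → β) : Prop :=
  ∃ c : ℕ, TimeF f (fun a => c * sz a ^ d) ∧ ∀ a, sz (f a) ≤ c * sz a ^ e

lemma Q.tp {f : α → β} (h : Q k f) : TP (k + 1) 1 f := by
  obtain ⟨c, h1, h2⟩ := h
  exact ⟨c, h1, fun a => by simpa using h2 a⟩

lemma TP.comp {g : β → γ} {f : α → β} {d e d' e' D : ℕ} (hg : TP d e g) (hf : TP d' e' f)
    (h1 : d' ≤ D) (h2 : e' * d ≤ D) : TP D (e' * e) (fun a => g (f a)) := by
  obtain ⟨c, g1, g2⟩ := hg
  obtain ⟨c', f1, f2⟩ := hf
  refine ⟨c' + c * c' ^ d + c * c' ^ e, (g1.comp f1).mono fun a => ?_, fun a => ?_⟩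
  · have e1 : sz (f a) ^ d ≤ (c' * sz a ^ e') ^ d := Nat.pow_le_pow_left (f2 a) _
    rw [mul_pow, ← pow_mul] at e1
    have e2 : sz a ^ (e' * d) ≤ sz a ^ D := Nat.pow_le_pow_right (sz_pos a) h2
    have e3 : sz a ^ d' ≤ sz a ^ D := Nat.pow_le_pow_right (sz_pos a) h1
    have e4 := Nat.mul_le_mul_left c (e1.trans (Nat.mul_le_mul_left _ e2))
    have e5 := Nat.mul_le_mul_left c' e3
    rw [add_mul, add_mul, mul_assoc]
    omega
  · have e1 : sz (f a) ^ e ≤ (c' * sz a ^ e') ^ e := Nat.pow_le_pow_left (f2 a) _
    rw [mul_pow, ← pow_mul] at e1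
    have e4 := (g2 _).trans (Nat.mul_le_mul_left c e1)
    beta_reduce
    rw [add_mul, add_mul, mul_assoc c (c' ^ e)]
    omega

/-- squaring the pad -/
def sqPad (p : List Unit × β) : List Unit × β := (List.replicate (p.1.length * p.1.length) (), p.2)

lemma tp_sqPad : TP 6 2 (sqPad : List Unit × β → List Unit × β) := by
  have key : ∀ (u m : List Unit), m.foldl (fun acc _ => u ++ acc) [] =
      List.replicate (m.length * u.length) () := by
    intro u m
    induction m using List.reverseRecOn with
    | nil => simp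
    | append_singleton m x ih =>
      rw [List.foldl_append, ih]
      rw [unit_eq_replicate (List.foldl _ _ _)]
      simp [add_mul, add_comm]
  obtain ⟨C, hC⟩ := while_core (k := 1) (α := List Unit × β)
    (f := fun p => (p, ([] : List Unit), (sqPad p).1))
    (foldStep (fun (p : List Unit × β) (acc : List Unit) (_ : Unit) => p.1 ++ acc))
    (fun s => !s.2.1.isEmpty) (fun p => (p, p.1, []))
    (fun p s => s.1 = p ∧ ∃ i, s.2.1 = p.1.drop i ∧
      s.2.2 = (p.1.take i).foldl (fun acc _ => p.1 ++ acc) [])
    (fun s => s.2.1.length) (fun p => 5 * sz p ^ 2) (q_foldStep (by fun_prop))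
    (by fun_prop) (by fun_prop)
    (fun p => by have := sz_pos p; nlinarith)
    (fun p => by
      have := length_le_sz p.1
      have := sz_fst_le p
      have := sz_pos p
      simp only; nlinarith)
    (fun p => ⟨rfl, 0, by simp, by simp⟩)
    (fun p s h hc => foldStep_inv (f := fun (p : List Unit × β) (acc : List Unit) (_ : Unit) =>
      p.1 ++ acc) _ _ p s h hc)
    (by
      rintro p ⟨p', m, acc⟩ ⟨rfl, i, h2, h3⟩
      simp only at h2 h3
      rw [key] at h3
      have e1 := sz_drop_le i p'.1
      have e2 := sz_fst_le p'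
      have e3 : (p'.1.take i).length ≤ p'.1.length := by simp
      have e4 := Nat.mul_le_mul_right p'.1.length e3
      have e5 := sz_unitList p'.1
      have e6 : 2 * p'.1.length + 1 ≤ sz p' := by omega
      have e7 := Nat.mul_le_mul e6 e6
      subst h2 h3
      simp only [sz_pair, sz_unitList, List.length_replicate] at e1 ⊢
      nlinarith)
    (by
      rintro p ⟨p', m, acc⟩ ⟨rfl, i, h2, h3⟩ hc
      simp only at h2 h3 hc
      have : m = [] := by simpa using hc
      subst this
      rw [h3, List.take_of_length_le (List.drop_eq_nil_iff.1 h2.symm), key]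
      rfl)
  have hsz : ∀ p : List Unit × β, sz (sqPad p).1 ≤ sz p ^ 2 := by
    intro p
    have e2 := sz_fst_le p
    have e5 := sz_unitList p.1
    have e6 : 2 * p.1.length + 1 ≤ sz p := by omega
    have e7 := Nat.mul_le_mul e6 e6
    simp only [sqPad, sz_unitList, List.length_replicate]
    nlinarith
  have h1 : TP 6 2 (fun p : List Unit × β => (p, ([] : List Unit), (sqPad p).1)) := by
    refine ⟨C * 5 ^ 3 + 5, hC.mono fun p => ?_, fun p => ?_⟩
    · rw [mul_pow, ← pow_mul, add_mul, mul_assoc]; norm_num
    · have := hsz p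
      have := sz_pos p
      simp only [sz_pair, sz_nil]
      nlinarith [Nat.zero_le (C * 5 ^ 3 * sz p ^ 2)]
  have h2 : Q 0 (fun s : (List Unit × β) × List Unit × List Unit => (s.2.2, s.1.2)) := by fun_prop
  exact h2.tp.comp h1 le_rfl (by norm_num)

lemma tp_sqPad_iter (j : ℕ) :
    TP (6 * 2 ^ j) (2 ^ j) (fun p : List Unit × β => sqPad^[j] p) := by
  induction j with
  | zero =>
    obtain ⟨c, h1, h2⟩ := (Q.id (k := 5) (α := List Unit × β)).tp
    exact ⟨c, h1, h2⟩
  | succ j ih =>
    have := tp_sqPad.comp ih (D := 6 * 2 ^ (j + 1)) (by rw [pow_succ]; omega)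
      (by rw [pow_succ]; omega)
    simpa only [Function.iterate_succ_apply', pow_succ] using this

omit [Enc β] in
lemma sqPad_iter (j n : ℕ) (x : β) :
    sqPad^[j] (List.replicate n (), x) = (List.replicate (n ^ 2 ^ j) (), x) := by
  induction j with
  | zero => simp
  | succ j ih =>
    rw [Function.iterate_succ_apply', ih, pow_succ, pow_mul]
    simp [sqPad, sq]

/-- A function of the padded input gives a time bound with an explicit exponent. -/
theorem timeBound_of_pad {G : List Unit × List Bool → List Bool} (hG : Q k G) (j e : ℕ)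
    (he : 6 * 2 ^ j ≤ e) (he' : 2 ^ j * (k + 1) ≤ e) (he2 : 2 ≤ e) (c : ℕ) :
    ∃ C : ℕ, Crest.DTime.TimeBound
      (fun x => G (List.replicate ((c * x.length + c) ^ 2 ^ j) (), x))
      (fun L => C * (L + 2) ^ e + C) := by
  have h0 : ∀ c : ℕ, Q 1 (fun x : List Bool => List.replicate (c * x.length + c) ()) := by
    intro c
    induction c with
    | zero => exact (Q.const []).congr fun x => by simp
    | succ c ih =>
      have h : Q 1 (fun x : List Bool => List.replicate (x.length + 1) ()) := by fun_prop
      exact (ih.append h).congr fun x => by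
        rw [← List.replicate_add]; congr 1; ring
  have h1 : Q 1 (fun x : List Bool => (List.replicate (c * x.length + c) (), x)) :=
    (h0 c).pair Q.id
  have h2 := (tp_sqPad_iter (β := List Bool) j).comp h1.tp (D := e) he2 (by omega)
  have h3 := hG.tp.comp h2 le_rfl (by rw [one_mul]; exact he')
  obtain ⟨C, h3, -⟩ := h3
  simp only [sqPad_iter] at h3
  obtain ⟨K, hK⟩ := h3.timeBound (fun L => C * 6 ^ e * (L + 2) ^ e) (fun x => by
    rw [sz_boolList, mul_assoc, ← mul_pow]
    gcongr
    omega)
  exact ⟨K * (C * 6 ^ e), TimeBoundComputable.mono hK fun n => by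
    rw [mul_assoc K]; omega⟩

end Crest.Agent.R286
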