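import Crest.Agent.R286.Defs

set_option autoImplicit false

namespace Crest.Agent.R286

variable {N : ℕ} {lt : ℕ → ℕ → Prop} {rk : ℕ → ℕ}

private theorem sel_up (ho : Ord N lt rk) {s : Tm} {j j' : ℕ} (h : inU N lt s j) (hj : lt j j') :
    inU N lt s j' := by
  rcases h with h | h | h
  · exact Or.inl h
  · exact Or.inr (Or.inl (ho.trans _ _ _ h hj))
  · exact Or.inr (Or.inr (ho.trans _ _ _ h hj))

private theorem sel_hosts_mono {t : Fin 3 → Tm} {V V' : Finset ℕ} (h : Hosts N lt rk t V)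
    (hV : V' ⊆ V) : Hosts N lt rk t V' := by
  obtain ⟨k, h1, h2⟩ := h
  exact ⟨k, h1.mono (Finset.coe_subset.2 hV), fun u hu => h2 u (hV hu)⟩

private theorem sel_two {V : Finset ℕ} (hV : V.card ≤ 2) {a b c : ℕ} (ha : a ∈ V) (hb : b ∈ V)
    (hc : c ∈ V) (hab : a ≠ b) : c = a ∨ c = b := by
  by_contra h
  rw [not_or] at h
  exact not_lt.2 hV (Finset.two_lt_card.2 ⟨a, ha, b, hb, c, hc, hab, Ne.symm h.1, Ne.symm h.2⟩)

/-- Case a: a host-free interval with a job that lies in no term outside the interval. -/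
private theorem sel_a (ho : Ord N lt rk) {t : Fin 3 → Tm} (hs : Str N lt t) (W V : Finset ℕ)
    (hW : ∀ w ∈ W, w < N) (hd : Disjoint W V) (hNP : ∀ w ∈ W, NP N lt rk t w)
    {k : ℕ → Fin 3} (hk : Set.InjOn k (V : Set ℕ))
    (hk2 : ∀ u ∈ V, ∀ j, lt u j → inT N lt rk (t (k u)) j) {lo hi : Fin 3}
    (hfree : ∀ u ∈ V, k u < lo ∨ hi < k u)
    (hA : ∃ w ∈ W, inU N lt (t hi) w ∧ (∀ l < lo, ¬ inU N lt (t l) w) ∧
      ∀ l, hi < l → rk w < (t l).2.2) :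
    ∃ v ∈ W, ∃ t' : Fin 3 → Tm, Str N lt t' ∧ (∀ u, u ∈ W ∨ u ∈ V → ¬ lt u v) ∧
      (∀ w ∈ W, w ≠ v → NP N lt rk t' w) ∧
      (∀ j, NP N lt rk t' j → NP N lt rk t j ∨ ∃ u ∈ V, lt u j) ∧
      (∀ j, j = v ∨ lt j v → ¬ NP N lt rk t' j) ∧ Hosts N lt rk t' (insert v V) := by
  classical
  obtain ⟨v, hv, hmin⟩ := (W.filter fun w => inU N lt (t hi) w ∧ (∀ l < lo, ¬ inU N lt (t l) w) ∧
      ∀ l, hi < l → rk w < (t l).2.2).exists_min_image rk
    (hA.imp fun w hw => Finset.mem_filter.2 hw)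
  obtain ⟨hvW, -, hv2, hv3⟩ := Finset.mem_filter.1 hv
  set t' : Fin 3 → Tm := fun l => ((t l).1, (t l).2.1,
    if lo ≤ l ∧ l ≤ hi then max (t l).2.2 (rk v + 1) else (t l).2.2) with ht'
  have hU : ∀ l j, inU N lt (t' l) j ↔ inU N lt (t l) j := fun l j => Iff.rfl
  have hin : ∀ l, lo ≤ l → l ≤ hi → (t' l).2.2 = max (t l).2.2 (rk v + 1) := fun l h1 h2 =>
    if_pos ⟨h1, h2⟩
  have hout : ∀ l, l < lo ∨ hi < l → (t' l).2.2 = (t l).2.2 := fun l h =>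
    if_neg fun hh => h.elim (not_lt.2 hh.1) (not_lt.2 hh.2)
  have htri : ∀ l : Fin 3, (lo ≤ l ∧ l ≤ hi) ∨ (l < lo ∨ hi < l) := fun l => by omega
  have hge : ∀ l, (t l).2.2 ≤ (t' l).2.2 := fun l => by
    rcases htri l with h | h
    · rw [hin l h.1 h.2]; exact le_max_left _ _
    · rw [hout l h]
  have hTo : ∀ l, l < lo ∨ hi < l → ∀ j, inT N lt rk (t l) j → inT N lt rk (t' l) j :=
    fun l h j hj => ⟨hj.1, (hout l h).trans_le hj.2⟩
  refine ⟨v, hvW, t', ⟨fun l l' h j => hs.nest l l' h j, fun l l' h => ?_, fun l => ?_⟩,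
    ?_, fun w hw hne => ?_, fun j ⟨l, hl⟩ => Or.inl ⟨l, hl.1, (hge l).trans hl.2⟩,
    fun j hj ⟨l, hl⟩ => ?_, ?_⟩
  · have h1 := hs.mono l l' h
    rcases htri l with h2 | h2
    · rw [hin l h2.1 h2.2]
      refine max_le (h1.trans (hge l')) ?_
      rcases htri l' with h3 | h3
      · rw [hin l' h3.1 h3.2]; exact le_max_right _ _
      · exact (hv3 l' (by omega)).trans_le' le_rfl |>.trans_le (hge l')
    · rw [hout l h2]; exact h1.trans (hge l')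
  · refine ⟨(hs.bdd l).1, (hs.bdd l).2.1, ?_⟩
    rcases htri l with h | h
    · rw [hin l h.1 h.2]; exact max_le (hs.bdd l).2.2 (ho.bdd v (hW v hvW))
    · rw [hout l h]; exact (hs.bdd l).2.2
  · rintro u (hu | hu) huv
    · have h1 := ho.mono u v huv
      obtain ⟨l, hl⟩ := hNP u hu
      have h2 : l ≤ hi := not_lt.1 fun h => by
        have := hv3 l h
        have := hl.2
        omega
      have := hmin u (Finset.mem_filter.2 ⟨hu, hs.nest l hi h2 u hl.1,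
        fun l' h hh => hv2 l' h (sel_up ho hh huv), fun l' h => h1.trans (hv3 l' h)⟩)
      omega
    · have h1 := hk2 u hu v huv
      rcases hfree u hu with h | h
      · exact hv2 _ h h1.1
      · exact not_le.2 (hv3 _ h) h1.2
  · obtain ⟨l, hl⟩ := hNP w hw
    rcases htri l with h | h
    · rcases lt_trichotomy (rk v) (rk w) with h1 | h1 | h1
      · exact ⟨l, hl.1, (hin l h.1 h.2).trans_le (max_le hl.2 h1)⟩
      · exact absurd (ho.inj _ _ (hW w hw) (hW v hvW) h1.symm) hne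
      · by_contra hn
        have := hmin w (Finset.mem_filter.2 ⟨hw, hs.nest l hi h.2 w hl.1, fun l' h2 hh =>
          hn ⟨l', hTo l' (Or.inl h2) w ⟨hh, (hs.mono l' l (h2.le.trans h.1)).trans hl.2⟩⟩,
          fun l' h2 => h1.trans (hv3 l' h2)⟩)
        omega
    · exact ⟨l, hTo l h w hl⟩
  · have h1 : rk j ≤ rk v := hj.elim (fun h => h ▸ le_rfl) fun h => (ho.mono _ _ h).le
    have h2 := hl.2
    rcases htri l with h | h | h
    · rw [hin l h.1 h.2] at h2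
      have := le_max_right (t l).2.2 (rk v + 1)
      omega
    · exact hv2 l h (hj.elim (fun e => e ▸ hl.1) fun e => sel_up ho hl.1 e)
    · have := hv3 l h
      have := hge l
      omega
  · obtain ⟨l, hl⟩ := hNP v hvW
    have h1 : lo ≤ l := not_lt.1 fun h => hv2 l h hl.1
    have h2 : l ≤ hi := not_lt.1 fun h => not_le.2 (hv3 l h) hl.2
    have hvV : ∀ u ∈ V, u ≠ v := fun u hu e => Finset.disjoint_left.1 hd hvW (e ▸ hu)
    refine ⟨fun u => if u = v then l else k u, fun a ha b hb hab => ?_, fun u hu j hj => ?_⟩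
    · rcases Finset.mem_insert.1 (Finset.mem_coe.1 ha) with ha | ha <;>
        rcases Finset.mem_insert.1 (Finset.mem_coe.1 hb) with hb | hb
      · rw [ha, hb]
      · simp only [if_pos ha, if_neg (hvV b hb)] at hab
        have := hfree b hb
        omega
      · simp only [if_pos hb, if_neg (hvV a ha)] at hab
        have := hfree a ha
        omega
      · simp only [if_neg (hvV a ha), if_neg (hvV b hb)] at hab
        exact hk ha hb hab
    · rcases Finset.mem_insert.1 hu with hu | hu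
      · simp only [if_pos hu]
        rw [hu] at hj
        have h3 := ho.mono _ _ hj
        exact ⟨sel_up ho hl.1 hj, (hin l h1 h2).trans_le (max_le (hl.2.trans h3.le) h3)⟩
      · simp only [if_neg (hvV u hu)]
        exact hTo _ (hfree u hu) j (hk2 u hu j hj)

/-- If case a fails then every job of `W` lies in a host term. -/
private theorem sel_host {t : Fin 3 → Tm} (hs : Str N lt t) (W V : Finset ℕ)
    (hNP : ∀ w ∈ W, NP N lt rk t w) {k : ℕ → Fin 3}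
    (hA : ∀ lo hi : Fin 3, (∀ u ∈ V, k u < lo ∨ hi < k u) →
      ¬ ∃ w ∈ W, inU N lt (t hi) w ∧ (∀ l < lo, ¬ inU N lt (t l) w) ∧
        ∀ l, hi < l → rk w < (t l).2.2) :
    ∀ w ∈ W, ∃ u ∈ V, inT N lt rk (t (k u)) w := by
  classical
  intro w hw
  by_contra hn
  obtain ⟨l, hl⟩ := hNP w hw
  have hl0 : ∀ u ∈ V, k u < l ∨ l < k u := fun u hu =>
    lt_or_gt_of_ne fun e => hn ⟨u, hu, e ▸ hl⟩
  obtain ⟨lo, hlo, hmin⟩ := (Finset.univ.filter fun i : Fin 3 =>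
    ∀ u ∈ V, k u < i ∨ l < k u).exists_min_image id ⟨l, Finset.mem_filter.2 ⟨Finset.mem_univ _, hl0⟩⟩
  obtain ⟨hi, hhi, hmax⟩ := (Finset.univ.filter fun i : Fin 3 =>
    ∀ u ∈ V, k u < l ∨ i < k u).exists_max_image id ⟨l, Finset.mem_filter.2 ⟨Finset.mem_univ _, hl0⟩⟩
  have h1 := (Finset.mem_filter.1 hlo).2
  have h2 := (Finset.mem_filter.1 hhi).2
  have h3 : l ≤ hi := hmax l (Finset.mem_filter.2 ⟨Finset.mem_univ _, hl0⟩)
  refine hA lo hi (fun u hu => ?_) ⟨w, hw, hs.nest l hi h3 w hl.1, fun l' h hh => ?_,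
    fun l' h => not_le.1 fun hh => ?_⟩
  · have := h1 u hu
    have := h2 u hu
    omega
  · refine not_le.2 h (hmin l' (Finset.mem_filter.2 ⟨Finset.mem_univ _, fun u hu => ?_⟩))
    by_contra h4
    rw [not_or, not_lt, not_lt] at h4
    exact hn ⟨u, hu, hs.nest _ _ h4.1 w hh, (hs.mono _ _ h4.2).trans hl.2⟩
  · refine not_le.2 h (hmax l' (Finset.mem_filter.2 ⟨Finset.mem_univ _, fun u hu => ?_⟩))
    by_contra h4
    rw [not_or, not_lt, not_lt] at h4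
    exact hn ⟨u, hu, hs.nest _ _ h4.1 w hl.1, (hs.mono _ _ h4.2).trans hh⟩

/-- Case b: every job of `W` lies in a host term. -/
private theorem sel_b (ho : Ord N lt rk) {t : Fin 3 → Tm} (hs : Str N lt t) (W V : Finset ℕ)
    (hW : ∀ w ∈ W, w < N) (hVN : ∀ u ∈ V, u < N) (hV : V.card ≤ 2) {k : ℕ → Fin 3}
    (hk2 : ∀ u ∈ V, ∀ j, lt u j → inT N lt rk (t (k u)) j)
    (hH : ∀ w ∈ W, ∃ u ∈ V, inT N lt rk (t (k u)) w) (hex : ∃ w ∈ W, ∀ u ∈ V, ¬ lt u w) :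
    ∃ v ∈ W, ∃ t' : Fin 3 → Tm, Str N lt t' ∧ (∀ u, u ∈ W ∨ u ∈ V → ¬ lt u v) ∧
      (∀ w ∈ W, w ≠ v → NP N lt rk t' w) ∧
      (∀ j, NP N lt rk t' j → NP N lt rk t j ∨ ∃ u ∈ V, lt u j) ∧
      (∀ j, j = v ∨ lt j v → ¬ NP N lt rk t' j) ∧
      (V.card ≤ 1 → Hosts N lt rk t' (insert v V)) ∧ Hosts N lt rk t' {v} := by
  classical
  obtain ⟨v, hv, hmin⟩ := (W.filter fun w => ∀ u ∈ V, ¬ lt u w).exists_min_image rk
    (hex.imp fun w hw => Finset.mem_filter.2 hw)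
  obtain ⟨hvW, hv1⟩ := Finset.mem_filter.1 hv
  obtain ⟨u0, hu0, hT0⟩ := hH v hvW
  obtain ⟨p, hp, hmax⟩ := (V.filter fun u => (t (k u)).2.2 ≤ rk v).exists_max_image k
    ⟨u0, Finset.mem_filter.2 ⟨hu0, hT0.2⟩⟩
  obtain ⟨hpV, hp1⟩ := Finset.mem_filter.1 hp
  have hvU : inU N lt (t (k p)) v :=
    hs.nest _ _ (hmax u0 (Finset.mem_filter.2 ⟨hu0, hT0.2⟩)) v hT0.1
  have hvN : rk v + 1 ≤ N := ho.bdd v (hW v hvW)
  obtain ⟨q, hqV, hq1, hq2⟩ : ∃ q ∈ V, k q ≤ k p ∧ ∀ u ∈ V, k u ≤ k p → u = p ∨ u = q := by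
    by_cases h : ∃ q ∈ V, k q ≤ k p ∧ p ≠ q
    · obtain ⟨q, h1, h2, h3⟩ := h
      exact ⟨q, h1, h2, fun u hu _ => sel_two hV hpV h1 hu h3⟩
    · exact ⟨p, hpV, le_rfl, fun u hu h1 => Or.inl (by_contra fun h2 => h ⟨u, hu, h1, Ne.symm h2⟩)⟩
  have hT1 : ∀ j, inT N lt rk ((t (k p)).1, (t (k p)).2.1, rk v + 1) j → NP N lt rk t j :=
    fun j hj => ⟨k p, hj.1, hp1.trans (Nat.le_of_succ_le hj.2)⟩
  obtain ⟨s, c1, c2, c3, c4, c5⟩ : ∃ s : Tm, (∀ j, inU N lt (t (k p)) j → inU N lt s j) ∧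
      rk v + 1 ≤ s.2.2 ∧ (s.1 ≤ N ∧ s.2.1 ≤ N ∧ s.2.2 ≤ N) ∧
      (∀ u ∈ V, k p < k u → s = t (k u)) ∧ ∀ j, inT N lt rk s j → NP N lt rk t j := by
    by_cases h : ∃ u ∈ V, k p < k u
    · obtain ⟨u, h1, h2⟩ := h
      refine ⟨t (k u), hs.nest _ _ h2.le, not_le.1 fun h3 =>
        not_le.2 h2 (hmax u (Finset.mem_filter.2 ⟨h1, h3⟩)), hs.bdd _, fun u' h4 h5 => ?_,
        fun j hj => ⟨_, hj⟩⟩
      rcases sel_two hV hpV h1 h4 (fun e => h2.ne (congrArg k e)) with e | e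
      · exact absurd (congrArg k e) h5.ne'
      · rw [e]
    · exact ⟨((t (k p)).1, (t (k p)).2.1, rk v + 1), fun j hj => hj, le_rfl,
        ⟨(hs.bdd _).1, (hs.bdd _).2.1, hvN⟩, fun u h1 h2 => absurd ⟨u, h1, h2⟩ h, hT1⟩
  have hU0 : ∀ j, inU N lt (p, q, 0) j → ∃ u ∈ V, k u ≤ k p ∧ lt u j := by
    rintro j (h | h | h)
    · exact absurd h (hVN p hpV).ne
    · exact ⟨p, hpV, le_rfl, h⟩
    · exact ⟨q, hqV, hq1, h⟩
  have hU1 : ∀ j, inU N lt (p, q, 0) j → inU N lt (t (k p)) j := fun j hj =>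
    let ⟨u, h1, h2, h3⟩ := hU0 j hj
    hs.nest _ _ h2 j (hk2 u h1 j h3).1
  have hG3 : ∀ u, u ∈ W ∨ u ∈ V → ¬ lt u v := by
    rintro u (hu | hu) huv
    · have := hmin u (Finset.mem_filter.2 ⟨hu, fun u' h1 h2 => hv1 u' h1 (ho.trans _ _ _ h2 huv)⟩)
      have := ho.mono _ _ huv
      omega
    · exact hv1 u hu huv
  have hv2 : ∀ j, lt v j → inT N lt rk ((t (k p)).1, (t (k p)).2.1, rk v + 1) j := fun j hj =>
    ⟨sel_up ho hvU hj, ho.mono _ _ hj⟩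
  refine ⟨v, hvW, ![(p, q, 0), ((t (k p)).1, (t (k p)).2.1, rk v + 1), s],
    ⟨fun l l' h j hj => ?_, fun l l' h => ?_, fun l => ?_⟩, hG3, fun w hw hne => ?_,
    fun j ⟨l, hl⟩ => ?_, fun j hj ⟨l, hl⟩ => ?_, fun h => ?_,
    ⟨fun _ => 1, by simp, fun u hu j hj => ?_⟩⟩
  · fin_cases l <;> fin_cases l' <;> first
      | exact hj | exact hU1 j hj | exact c1 j (hU1 j hj) | exact c1 j hj | exact absurd h (by decide)
  · fin_cases l <;> fin_cases l' <;> first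
      | exact le_rfl | exact Nat.zero_le _ | exact c2 | exact absurd h (by decide)
  · fin_cases l
    · exact ⟨(hVN p hpV).le, (hVN q hqV).le, Nat.zero_le _⟩
    · exact ⟨(hs.bdd _).1, (hs.bdd _).2.1, hvN⟩
    · exact c3
  · have key : ∀ u ∈ V, k p < k u → inT N lt rk (t (k u)) w → NP N lt rk
        ![(p, q, 0), ((t (k p)).1, (t (k p)).2.1, rk v + 1), s] w := fun u h1 h2 h3 =>
      ⟨2, by rw [← c4 u h1 h2] at h3; exact h3⟩
    obtain ⟨u, hu, hT⟩ := hH w hw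
    rcases lt_or_ge (k p) (k u) with h | h
    · exact key u hu h hT
    · rcases lt_trichotomy (rk v) (rk w) with h1 | h1 | h1
      · exact ⟨1, hs.nest _ _ h w hT.1, h1⟩
      · exact absurd (ho.inj _ _ (hW w hw) (hW v hvW) h1.symm) hne
      · obtain ⟨u', h2, h3⟩ : ∃ u' ∈ V, lt u' w := by
          by_contra hn
          exact not_le.2 h1 (hmin w (Finset.mem_filter.2 ⟨hw, fun u' h2 h3 => hn ⟨u', h2, h3⟩⟩))
        rcases lt_or_ge (k p) (k u') with h4 | h4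
        · exact key u' h2 h4 (hk2 u' h2 w h3)
        · refine ⟨0, ?_, Nat.zero_le _⟩
          rcases hq2 u' h2 h4 with e | e
          · exact Or.inr (Or.inl (e ▸ h3))
          · exact Or.inr (Or.inr (e ▸ h3))
  · fin_cases l
    · obtain ⟨u, h1, -, h3⟩ := hU0 j hl.1
      exact Or.inr ⟨u, h1, h3⟩
    · exact Or.inl (hT1 j hl)
    · exact Or.inl (c5 j hl)
  · have h1 : rk j ≤ rk v := hj.elim (fun h => h ▸ le_rfl) fun h => (ho.mono _ _ h).le
    fin_cases l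
    · obtain ⟨u, h2, -, h3⟩ := hU0 j hl.1
      exact hv1 u h2 (hj.elim (fun e => e ▸ h3) fun e => ho.trans _ _ _ h3 e)
    · exact not_lt.2 h1 hl.2
    · exact not_lt.2 h1 (c2.trans hl.2)
  · have h1 : ∀ u ∈ insert v V, u ≠ v → u = p := fun u hu hne =>
      Finset.card_le_one.1 h u ((Finset.mem_insert.1 hu).resolve_left hne) p hpV
    refine ⟨fun u => if u = v then 1 else 0, fun a ha b hb hab => ?_, fun u hu j hj => ?_⟩
    · by_cases h2 : a = v <;> by_cases h3 : b = v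
      · rw [h2, h3]
      · simp [h2, h3] at hab
      · simp [h2, h3] at hab
      · rw [h1 a ha h2, h1 b hb h3]
    · by_cases h2 : u = v
      · simp only [if_pos h2]
        exact hv2 j (h2 ▸ hj)
      · simp only [if_neg h2]
        exact ⟨Or.inr (Or.inl (h1 u hu h2 ▸ hj)), Nat.zero_le _⟩
  · exact hv2 j (Finset.mem_singleton.1 hu ▸ hj)

/-- Selection lemma. -/
theorem select (ho : Ord N lt rk) {t : Fin 3 → Tm} (hs : Str N lt t) (W V : Finset ℕ)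
    (hW : ∀ w ∈ W, w < N) (hVN : ∀ u ∈ V, u < N) (hd : Disjoint W V) (hV : V.card ≤ 2)
    (hNP : ∀ w ∈ W, NP N lt rk t w) (hh : Hosts N lt rk t V)
    (hex : ∃ w ∈ W, ∀ u ∈ V, ¬ lt u w) :
    ∃ v ∈ W, ∃ t' : Fin 3 → Tm, Str N lt t' ∧ (∀ u, u ∈ W ∨ u ∈ V → ¬ lt u v) ∧
      (∀ w ∈ W, w ≠ v → NP N lt rk t' w) ∧
      (∀ j, NP N lt rk t' j → NP N lt rk t j ∨ ∃ u ∈ V, lt u j) ∧
      (∀ j, j = v ∨ lt j v → ¬ NP N lt rk t' j) ∧
      (V.card ≤ 1 → Hosts N lt rk t' (insert v V)) ∧ Hosts N lt rk t' {v} := by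
  obtain ⟨k, hk, hk2⟩ := hh
  by_cases h : ∃ lo hi : Fin 3, (∀ u ∈ V, k u < lo ∨ hi < k u) ∧
      ∃ w ∈ W, inU N lt (t hi) w ∧ (∀ l < lo, ¬ inU N lt (t l) w) ∧
        ∀ l, hi < l → rk w < (t l).2.2
  · obtain ⟨lo, hi, h1, h2⟩ := h
    obtain ⟨v, hv, t', g1, g2, g3, g4, g5, g6⟩ := sel_a ho hs W V hW hd hNP hk hk2 h1 h2
    exact ⟨v, hv, t', g1, g2, g3, g4, g5, fun _ => g6,
      sel_hosts_mono g6 (Finset.singleton_subset_iff.2 (Finset.mem_insert_self _ _))⟩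
  · exact sel_b ho hs W V hW hVN hV hk2
      (sel_host hs W V hNP fun lo hi h1 h2 => h ⟨lo, hi, h1, h2⟩) hex

end Crest.Agent.R286
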