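import Crest.Agent.R286.TimeQ
import Crest.Agent.R286.Sound

/-!
Row 286, machine side: the clamps are invisible, hence the time bound of the program.
-/

set_option autoImplicit false
set_option linter.dupNamespace false

namespace Crest.Agent.R286

open Crest.Agent.Lib.PT

variable {β γ : Type} [Enc β] [Enc γ] {X : ℕ}

/-- at most `X ^ a` entries, each of size at most `X ^ s` -/
def Bd (X a s : ℕ) (l : List β) : Prop := l.length ≤ X ^ a ∧ ∀ x ∈ l, sz x ≤ X ^ s

lemma Bd.mono {a s a' s' : ℕ} {l : List β} (h : Bd X a s l) (hX : 4 ≤ X) (ha : a ≤ a')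
    (hs : s ≤ s') : Bd X a' s' l :=
  ⟨h.1.trans (Nat.pow_le_pow_right (by omega) ha),
    fun x hx => (h.2 x hx).trans (Nat.pow_le_pow_right (by omega) hs)⟩

lemma Bd.sublist {a s : ℕ} {l m : List β} (h : Bd X a s l) (hm : m.Sublist l) : Bd X a s m :=
  ⟨hm.length_le.trans h.1, fun x hx => h.2 x (hm.subset hx)⟩

lemma Bd.sz_le {a s : ℕ} {l : List β} (h : Bd X a s l) (hX : 4 ≤ X) : sz l ≤ X ^ (a + s + 1) := by
  have h1 := sz_list_le l _ h.2
  have h2 := Nat.mul_le_mul_left (X ^ s + 1) h.1
  have h3 : 0 < X ^ s := pow_pos (by omega) _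
  have h4 : 0 < X ^ a := pow_pos (by omega) _
  have h5 : X ^ a ≤ X ^ a * X ^ s := Nat.le_mul_of_pos_right _ h3
  have h6 := Nat.mul_le_mul_left (X ^ a * X ^ s) hX
  rw [pow_succ, pow_add]
  nlinarith

lemma Bd.pad {a s : ℕ} {l : List β} (h : Bd X a s l) (hX : 4 ≤ X) {pad : List Unit}
    (hp : X ^ 64 ≤ pad.length) (ha : a + s + 1 ≤ 64) : sz l ≤ pad.length :=
  (h.sz_le hX).trans ((Nat.pow_le_pow_right (by omega) ha).trans hp)

lemma Bd.product {a b s t : ℕ} {l : List β} {m : List γ} (h : Bd X a s l) (h' : Bd X b t m)
    (hX : 4 ≤ X) (hs : s ≤ t) : Bd X (a + b) (t + 1) (l.product m) := by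
  refine ⟨?_, ?_⟩
  · have : (l.product m).length = l.length * m.length := List.length_product l m
    rw [this, pow_add]
    exact Nat.mul_le_mul h.1 h'.1
  · rintro ⟨x, y⟩ hxy
    obtain ⟨hx, hy⟩ := List.pair_mem_product.1 hxy
    have h1 := (h.mono hX le_rfl hs).2 x hx
    have h2 := h'.2 y hy
    have h3 : 0 < X ^ t := pow_pos (by omega) _
    have h4 := Nat.mul_le_mul_left (X ^ t) hX
    rw [sz_pair, pow_succ]
    omega

lemma bd_triples {r : List ℕ} (hX : 4 ≤ X) (hr : Bd X 1 1 r) : Bd X 3 3 (triples r) :=
  hr.product (hr.product hr hX le_rfl) hX (by omega)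

lemma triplesC_eq {r : List ℕ} {pad : List Unit} (hX : 4 ≤ X) (hp : X ^ 64 ≤ pad.length)
    (hr : Bd X 1 1 r) : triplesC pad r = triples r := by
  unfold triplesC
  rw [productC_eq (l := r) (m := r) ((hr.product hr hX le_rfl).pad hX hp (by omega)),
    productC_eq ((bd_triples hX hr).pad hX hp (by omega))]
  rfl

lemma keysC_eq {r : List ℕ} {pad : List Unit} (hX : 4 ≤ X) (hp : X ^ 64 ≤ pad.length)
    (hr : Bd X 1 1 r) : keysC pad r = keys r ∧ Bd X 19 9 (keys r) := by
  have h2 := hr.product hr hX le_rfl
  have h3 := bd_triples hX hr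
  have k1 := h3.product h3 hX le_rfl
  have k2 := h3.product k1 hX (by omega)
  have k3 := h3.product k2 hX (by omega)
  have k4 := h3.product k3 hX (by omega)
  have k5 := h2.product k4 hX (by omega)
  have k6 := h2.product k5 hX (by omega)
  refine ⟨?_, k6⟩
  unfold keysC
  rw [triplesC_eq hX hp hr, productC_eq (h2.pad hX hp (by omega)),
    productC_eq (k1.pad hX hp (by omega)), productC_eq (k2.pad hX hp (by omega)),
    productC_eq (k3.pad hX hp (by omega)), productC_eq (k4.pad hX hp (by omega)),
    productC_eq (k5.pad hX hp (by omega)), productC_eq (k6.pad hX hp (by omega))]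
  rfl

lemma Good.sz_le {R : Rel} {js : List ℕ} {σ : Sch} (h : Good R js σ) (hX : 4 ≤ X)
    (hj : Bd X 1 1 js) : sz σ ≤ X ^ 4 := by
  have : Bd X 1 2 σ := by
    refine ⟨?_, fun s hs => ?_⟩
    · have := h.three_mul_length_le
      have := hj.1
      omega
    · have h1 := sz_list_le s X (fun a ha => by
        have := hj.2 a (h.sub a (List.mem_flatten.2 ⟨s, hs, ha⟩))
        simpa using this)
      rw [h.len s hs] at h1
      nlinarith
  exact this.sz_le hX

lemma bd_round {R : Rel} {js : List ℕ} {ks : List Key} {tab : List Sch} (hX : 4 ≤ X)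
    (hj : Bd X 1 1 js) (hk : Bd X 19 9 ks) (ht : ∀ σ ∈ tab, Good R js σ) :
    Bd X 20 4 (round R js ks tab) := by
  refine ⟨?_, fun σ hσ => (good_round ht σ hσ).sz_le hX hj⟩
  have h1 : (base R js).length ≤ X ^ 19 := by
    unfold base
    rw [List.length_map]
    exact (List.length_filter_le _ _).trans ((bd_triples hX hj).mono hX (by omega) le_rfl).1
  have h2 : (pickAll R js ks (cands R tab)).length ≤ X ^ 19 :=
    (List.length_filterMap_le _ _).trans hk.1
  have h4 := Nat.mul_le_mul_left (X ^ 19) hX
  unfold round
  rw [List.length_append, pow_succ]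
  omega

lemma roundC_eq {R : Rel} {js : List ℕ} {ks : List Key} {tab : List Sch} {pad : List Unit}
    (hX : 4 ≤ X) (hp : X ^ 64 ≤ pad.length) (hj : Bd X 1 1 js) (hk : Bd X 19 9 ks)
    (ht : ∀ σ ∈ tab, Good R js σ) (hb : Bd X 20 4 tab) :
    roundC pad R js ks tab = round R js ks tab := by
  have h1 : baseC pad R js = base R js := by
    unfold baseC base
    rw [triplesC_eq hX hp hj]
  have h2 : candsC pad R tab = cands R tab := by
    unfold candsC cands
    rw [productC_eq ((hb.product hb hX le_rfl).pad hX hp (by omega))]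
  have h3 : ks.flatMap (fun c => ((cands R tab).find? (fun σ => matchK R js c σ)).toList) =
      pickAll R js ks (cands R tab) := by
    unfold pickAll
    rw [List.filterMap_eq_flatMap_toList]
  have h4 : Bd X 20 4 (pickAll R js ks (cands R tab)) :=
    (bd_round hX hj hk ht).sublist (List.sublist_append_right _ _)
  unfold roundC round pickAllC
  rw [h1, h2, flatMapC_eq (by rw [h3]; exact h4.pad hX hp (by omega)), h3]

lemma tableC_eq {R : Rel} {js : List ℕ} {ks : List Key} {pad : List Unit}
    (hX : 4 ≤ X) (hp : X ^ 64 ≤ pad.length) (hj : Bd X 1 1 js) (hk : Bd X 19 9 ks) :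
    tableC pad R js ks = table R js ks := by
  have hb : ∀ l : List ℕ, Bd X 20 4 (l.foldl (fun tab _ => round R js ks tab) []) := by
    intro l
    induction l using List.reverseRecOn with
    | nil => exact ⟨by simp, by simp⟩
    | append_singleton l a _ =>
      rw [List.foldl_append]
      exact bd_round hX hj hk (good_foldl R js ks l)
  have key : ∀ l : List ℕ, l.foldl (fun tab _ => roundC pad R js ks tab) [] =
      l.foldl (fun tab _ => round R js ks tab) [] := by
    intro l
    induction l using List.reverseRecOn with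
    | nil => rfl
    | append_singleton l a ih =>
      rw [List.foldl_append, List.foldl_append, ih]
      exact roundC_eq hX hp hj hk (good_foldl R js ks l) (hb l)
  unfold tableC table
  rw [foldC_eq, key]
  intro i
  rw [key]
  exact (hb _).pad hX hp (by omega)

lemma solveC_eq {R : Rel} {js : List ℕ} {pad : List Unit}
    (hX : 4 ≤ X) (hp : X ^ 64 ≤ pad.length) (hr : Bd X 1 1 (js ++ [js.length])) :
    solveC pad R js = solve R js := by
  obtain ⟨h1, h2⟩ := keysC_eq hX hp hr
  unfold solveC solve
  rw [h1, tableC_eq hX hp (hr.sublist (List.sublist_append_left _ _)) h2]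

lemma bd_range {m : ℕ} (h : 2 * m ≤ X) : Bd X 1 1 (List.range m) :=
  ⟨by simp; omega, fun x hx => by rw [szU]; simp at hx ⊢; omega⟩

lemma bestC_eq {R : Rel} {n m : ℕ} {pad : List Unit}
    (hX : 4 ≤ X) (hp : X ^ 64 ≤ pad.length) (hm : 2 * m + 2 ≤ X) :
    bestC pad R n (List.range m) = best R n (List.range m) := by
  have : ∀ N, solveC pad R ((List.range m).filter (fun j => decide (j < N))) =
      solve R ((List.range m).filter (fun j => decide (j < N))) := by
    intro N
    have h1 := List.length_filter_le (fun j => decide (j < N)) (List.range m)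
    rw [List.length_range] at h1
    refine solveC_eq hX hp
      ⟨by simp only [List.length_append, List.length_singleton, pow_one]; omega, fun x hx => ?_⟩
    rw [szU, pow_one]
    rcases List.mem_append.1 hx with hx | hx
    · have := List.mem_range.1 (List.mem_filter.1 hx).1
      omega
    · rw [List.mem_singleton.1 hx]; omega
  unfold bestC best
  simp only [this]

lemma length_best (R : Rel) (n m : ℕ) : (best R n (List.range m)).length ≤ m := by
  unfold best
  cases h : (List.range m).findSome? (fun N => if N < n then none else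
      solve R ((List.range m).filter (fun j => decide (j < N)))) with
  | none => simp
  | some σ =>
    obtain ⟨N, -, hN⟩ := List.exists_of_findSome?_eq_some h
    split_ifs at hN
    have h1 := (good_solve hN).1.three_mul_length_le
    have h2 := List.length_filter_le (fun j => decide (j < N)) (List.range m)
    rw [List.length_range] at h2
    simp only [Option.getD_some]
    omega

theorem progC_eq (x : List Bool) {pad : List Unit}
    (hp : (10 * x.length + 10) ^ 64 ≤ pad.length) : progC pad x = prog x := by
  set X := 10 * x.length + 10 with hXd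
  have hX : 4 ≤ X := by omega
  have hr : Bd X 1 1 (List.range (false :: x).length) := bd_range (by simp; omega)
  have h1 : rangeC pad (false :: x).length = List.range (false :: x).length :=
    rangeC_eq (hr.pad hX hp (by omega))
  have h2 : parseNC pad x = parseN x := by
    unfold parseNC parseN
    rw [h1]
  have h3 : parseJC pad x = parseJ x := by
    unfold parseJC parseJ
    rw [h1, h2]
  have hj : Bd X 1 1 (parseJ x) := hr.sublist List.filter_sublist
  have hjl : (parseJ x).length ≤ x.length + 1 := by
    have := List.length_filter_le (fun j => decide (j < parseN x)) (List.range (false :: x).length)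
    rw [List.length_range, List.length_cons] at this
    exact this
  have h4 : productC pad (parseJ x) (parseJ x) = (parseJ x).product (parseJ x) :=
    productC_eq ((hj.product hj hX le_rfl).pad hX hp (by omega))
  have h5 : parseEC pad x = parseE x := by
    unfold parseEC parseE
    rw [h2, h3, h4]
  have hm : 2 * (0 :: (parseJ x ++ parseJ x ++ parseJ x)).length + 2 ≤ X := by
    simp only [List.length_cons, List.length_append]; omega
  have h6 : rangeC pad (0 :: (parseJ x ++ parseJ x ++ parseJ x)).length =
      List.range (0 :: (parseJ x ++ parseJ x ++ parseJ x)).length :=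
    rangeC_eq ((bd_range (X := X) (by omega)).pad hX hp (by omega))
  unfold progC prog core finishC finish
  rw [h3, h4, h5, h6, bestC_eq hX hp hm, mapC_eq]
  · rfl
  · refine Bd.pad (a := 1) (s := 2) ⟨by rw [List.length_map]; exact hj.1, fun y hy => ?_⟩ hX hp
      (by omega)
    obtain ⟨j, -, rfl⟩ := List.mem_map.1 hy
    have e1 := length_best (warshallP ((parseJ x).product (parseJ x)) (parseJ x) (parseE x))
      (parseJ x).length (0 :: (parseJ x ++ parseJ x ++ parseJ x)).length
    generalize best _ _ _ = σ at e1 ⊢
    have e2 : σ.findIdx (fun s => s.contains j) ≤ σ.length := List.findIdx_le_length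
    rw [szU]
    unfold slot
    nlinarith

lemma timeBound_prog_aux (j e : ℕ) (hj : 2 ^ j = 64) (he : 640 ≤ e) :
    ∃ C : ℕ, Crest.DTime.TimeBound prog (fun L => C * (L + 2) ^ e + C) := by
  obtain ⟨C, hC⟩ := timeBound_of_pad q_progC j e (by omega) (by omega) (by omega) 10
  refine ⟨C, ?_⟩
  have : (fun x : List Bool =>
      progC (List.replicate ((10 * x.length + 10) ^ 2 ^ j) ()) x) = prog :=
    funext fun x => progC_eq x (by rw [List.length_replicate, hj])
  rw [← this]
  exact hC

/-- The program runs within the required number of steps. -/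
theorem timeBound_prog :
    ∃ C : ℕ, Crest.DTime.TimeBound prog (fun L => C * (L + 2) ^ 150020 + C) :=
  timeBound_prog_aux 6 150020 (by norm_num) (by norm_num)

end Crest.Agent.R286
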