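import Crest.Agent.R286.Defs
import Crest.Agent.Lib.PD.Tac

set_option autoImplicit false

namespace Crest.Agent.R286

open Crest.Agent.Lib.PT Crest.Agent.Lib.PD

variable {α : Type} [Enc α] {t₁ s₁ t₂ s₂ t₃ s₃ t₄ s₄ : ℕ}

theorem comp₃ {β γ δ ε : Type} [Enc β] [Enc γ] [Enc δ] [Enc ε] {t s : ℕ} {g : β → γ → δ → ε}
    {f₁ : α → β} {f₂ : α → γ} {f₃ : α → δ}
    (hg : PD t s (fun p : β × γ × δ => g p.1 p.2.1 p.2.2)) (h₁ : PD t₁ s₁ f₁) (h₂ : PD t₂ s₂ f₂)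
    (h₃ : PD t₃ s₃ f₃) :
    PD (max (max t₁ (max t₂ t₃)) (t * max s₁ (max s₂ s₃))) (s * max s₁ (max s₂ s₃))
      (fun a => g (f₁ a) (f₂ a) (f₃ a)) := hg.comp (h₁.pair (h₂.pair h₃))

theorem comp₄ {β γ δ ε ζ : Type} [Enc β] [Enc γ] [Enc δ] [Enc ε] [Enc ζ] {t s : ℕ}
    {g : β → γ → δ → ε → ζ} {f₁ : α → β} {f₂ : α → γ} {f₃ : α → δ} {f₄ : α → ε}
    (hg : PD t s (fun p : β × γ × δ × ε => g p.1 p.2.1 p.2.2.1 p.2.2.2)) (h₁ : PD t₁ s₁ f₁)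
    (h₂ : PD t₂ s₂ f₂) (h₃ : PD t₃ s₃ f₃) (h₄ : PD t₄ s₄ f₄) :
    PD (max (max t₁ (max t₂ (max t₃ t₄))) (t * max s₁ (max s₂ (max s₃ s₄))))
      (s * max s₁ (max s₂ (max s₃ s₄))) (fun a => g (f₁ a) (f₂ a) (f₃ a) (f₄ a)) :=
  hg.comp (h₁.pair (h₂.pair (h₃.pair h₄)))

theorem pd_ltB : PD 5 0 (fun p : Rel × ℕ × ℕ => ltB p.1 p.2.1 p.2.2) := by
  unfold ltB; pd
macro_rules | `(tactic| pd_step) => `(tactic| with_reducible apply comp₃ pd_ltB)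

theorem pd_wStep : PD 20 2 (fun p : List ℕ × Rel × ℕ => wStep p.1 p.2.1 p.2.2) := by
  unfold wStep; pd

theorem pd_pc : PD 8 1 (fun p : Rel × List ℕ × ℕ => pc p.1 p.2.1 p.2.2) := by
  unfold pc; pd
macro_rules | `(tactic| pd_step) => `(tactic| with_reducible apply comp₃ pd_pc)

theorem pd_keyLt : PD 8 0
    (fun p : Rel × List ℕ × ℕ × ℕ => keyLt p.1 p.2.1 p.2.2.1 p.2.2.2) := by
  unfold keyLt; pd
macro_rules | `(tactic| pd_step) => `(tactic| with_reducible apply comp₄ pd_keyLt)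

theorem pd_rkB : PD 9 1 (fun p : Rel × List ℕ × ℕ => rkB p.1 p.2.1 p.2.2) := by
  unfold rkB; pd
macro_rules | `(tactic| pd_step) => `(tactic| with_reducible apply comp₃ pd_rkB)

theorem pd_inTB : PD 9 0
    (fun p : Rel × List ℕ × Tm × ℕ => inTB p.1 p.2.1 p.2.2.1 p.2.2.2) := by
  unfold inTB; pd
macro_rules | `(tactic| pd_step) => `(tactic| with_reducible apply comp₄ pd_inTB)

theorem pd_memX : PD 9 0
    (fun p : Rel × List ℕ × Key × ℕ => memX p.1 p.2.1 p.2.2.1 p.2.2.2) := by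
  unfold memX; pd
macro_rules | `(tactic| pd_step) => `(tactic| with_reducible apply comp₄ pd_memX)

end Crest.Agent.R286
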