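import Crest.Agent.R286.Time1
import Crest.Agent.R286.Sound

set_option autoImplicit false

namespace Crest.Agent.R286

open Crest.Agent.Lib.PT Crest.Agent.Lib.PD

theorem pd_triples : PD 20 3 triples := by
  show PD 20 3 (fun r => triples r)
  unfold triples; pd
macro_rules | `(tactic| pd_step) => `(tactic| with_reducible apply PD.comp pd_triples)

theorem pd_keys : PD 170 19 keys := by
  show PD 170 19 (fun r => keys r)
  unfold keys; pd
macro_rules | `(tactic| pd_step) => `(tactic| with_reducible apply PD.comp pd_keys)

theorem pd_okSlot : PD 7 0 (fun p : Rel × List ℕ => okSlot p.1 p.2) := by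
  unfold okSlot; pd
macro_rules | `(tactic| pd_step) => `(tactic| with_reducible apply PD.comp₂ pd_okSlot)

theorem pd_base : PD 24 6 (fun p : Rel × List ℕ => base p.1 p.2) := by
  unfold base; pd
macro_rules | `(tactic| pd_step) => `(tactic| with_reducible apply PD.comp₂ pd_base)

theorem pd_compat : PD 7 0 (fun p : Rel × Sch × Sch => compat p.1 p.2.1 p.2.2) := by
  unfold compat; pd
macro_rules | `(tactic| pd_step) => `(tactic| with_reducible apply comp₃ pd_compat)

theorem pd_cands : PD 16 4 (fun p : Rel × List Sch => cands p.1 p.2) := by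
  unfold cands; pd
macro_rules | `(tactic| pd_step) => `(tactic| with_reducible apply PD.comp₂ pd_cands)

theorem pd_matchK : PD 10 0
    (fun p : Rel × List ℕ × Key × Sch => matchK p.1 p.2.1 p.2.2.1 p.2.2.2) := by
  unfold matchK; pd
macro_rules | `(tactic| pd_step) => `(tactic| with_reducible apply comp₄ pd_matchK)

theorem pd_pickAll : PD 12 2
    (fun p : Rel × List ℕ × List Key × List Sch => pickAll p.1 p.2.1 p.2.2.1 p.2.2.2) := by
  unfold pickAll; pd
macro_rules | `(tactic| pd_step) => `(tactic| with_reducible apply comp₄ pd_pickAll)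

theorem pd_round : PD 48 8
    (fun p : Rel × List ℕ × List Key × List Sch => round p.1 p.2.1 p.2.2.1 p.2.2.2) := by
  unfold round; pd
macro_rules | `(tactic| pd_step) => `(tactic| with_reducible apply comp₄ pd_round)

theorem pd_slot : PD 8 1 (fun p : Sch × ℕ => slot p.1 p.2) := by
  unfold slot; pd
macro_rules | `(tactic| pd_step) => `(tactic| with_reducible apply PD.comp₂ pd_slot)

theorem pd_finish : PD 20 4 (fun p : List ℕ × Sch => finish p.1 p.2) := by
  unfold finish; pd
macro_rules | `(tactic| pd_step) => `(tactic| with_reducible apply PD.comp₂ pd_finish)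

theorem pd_parseN : PD 20 2 parseN := by
  show PD 20 2 (fun r => parseN r)
  unfold parseN; pd
macro_rules | `(tactic| pd_step) => `(tactic| with_reducible apply PD.comp pd_parseN)

theorem pd_parseJ : PD 42 2 parseJ := by
  show PD 42 2 (fun r => parseJ r)
  unfold parseJ; pd
macro_rules | `(tactic| pd_step) => `(tactic| with_reducible apply PD.comp pd_parseJ)

end Crest.Agent.R286
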