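import Crest.Agent.R286.Q2
import Crest.Agent.R286.Defs

/-!
Row 286, machine side: the program with clamped loops and its degree.
-/

set_option autoImplicit false
set_option linter.dupNamespace false

namespace Crest.Agent.R286

open Crest.Agent.Lib.PT

variable {α : Type} [Enc α] {k : ℕ}

@[fun_prop] lemma q_ltB {R : α → Rel} {u v : α → ℕ} (hR : Q (k + 2) R) (hu : Q (k + 2) u)
    (hv : Q (k + 2) v) : Q (k + 2) (fun a => ltB (R a) (u a) (v a)) := by
  unfold ltB
  fun_prop

/-- Warshall's algorithm on a given list of pairs -/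
def warshallP (P : Rel) (js : List ℕ) (E : Rel) : Rel :=
  js.foldl (fun R k => P.filter (fun p => ltB R p.1 p.2 || (ltB R p.1 k && ltB R k p.2))) E

@[fun_prop] lemma q_warshallP {P E : α → Rel} {js : α → List ℕ} (hP : Q (k + 4) P)
    (hj : Q (k + 4) js) (hE : Q (k + 4) E) :
    Q (k + 4) (fun a => warshallP (P a) (js a) (E a)) := by
  have h : Q (k + 4) (fun p : Rel × List ℕ × Rel => warshallP p.1 p.2.1 p.2.2) := by
    unfold warshallP
    refine Q.foldl_inv (k := k + 3) (f := fun (p : Rel × List ℕ × Rel) (R : Rel) (k : ℕ) =>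
        p.1.filter (fun q => ltB R q.1 q.2 || (ltB R q.1 k && ltB R k q.2)))
      (fun p R => sz R ≤ sz p) 1 (by fun_prop) (by fun_prop) (by fun_prop) ?_ ?_ ?_
    · intro p
      exact (sz_snd_le p.2).trans (sz_snd_le p)
    · intro p R x _ _
      exact (sz_filter_le _ _).trans (sz_fst_le p)
    · intro p R h; omega
  exact h.comp (f := fun a => (P a, js a, E a)) (by fun_prop)

@[fun_prop] lemma q_pc {R : α → Rel} {js : α → List ℕ} {v : α → ℕ} (hR : Q (k + 3) R)
    (hj : Q (k + 3) js) (hv : Q (k + 3) v) : Q (k + 3) (fun a => pc (R a) (js a) (v a)) := by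
  have h : Q (k + 3) (fun p : Rel × List ℕ × ℕ => pc p.1 p.2.1 p.2.2) := by
    unfold pc
    fun_prop
  exact h.comp (f := fun a => (R a, js a, v a)) (by fun_prop)

@[fun_prop] lemma q_keyLt {R : α → Rel} {js : α → List ℕ} {u v : α → ℕ} (hR : Q (k + 3) R)
    (hj : Q (k + 3) js) (hu : Q (k + 3) u) (hv : Q (k + 3) v) :
    Q (k + 3) (fun a => keyLt (R a) (js a) (u a) (v a)) := by
  unfold keyLt
  fun_prop

@[fun_prop] lemma q_rkB {R : α → Rel} {js : α → List ℕ} {v : α → ℕ} (hR : Q (k + 4) R)
    (hj : Q (k + 4) js) (hv : Q (k + 4) v) : Q (k + 4) (fun a => rkB (R a) (js a) (v a)) := by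
  have h : Q (k + 4) (fun p : Rel × List ℕ × ℕ => rkB p.1 p.2.1 p.2.2) := by
    unfold rkB
    fun_prop
  exact h.comp (f := fun a => (R a, js a, v a)) (by fun_prop)

@[fun_prop] lemma q_inTB {R : α → Rel} {js : α → List ℕ} {t : α → Tm} {v : α → ℕ}
    (hR : Q (k + 4) R) (hj : Q (k + 4) js) (ht : Q (k + 4) t) (hv : Q (k + 4) v) :
    Q (k + 4) (fun a => inTB (R a) (js a) (t a) (v a)) := by
  unfold inTB
  fun_prop

@[fun_prop] lemma q_memX {R : α → Rel} {js : α → List ℕ} {c : α → Key} {v : α → ℕ}
    (hR : Q (k + 4) R) (hj : Q (k + 4) js) (hc : Q (k + 4) c) (hv : Q (k + 4) v) :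
    Q (k + 4) (fun a => memX (R a) (js a) (c a) (v a)) := by
  unfold memX
  fun_prop

/-- clamped `triples` -/
def triplesC (pad : List Unit) (r : List ℕ) : List Tm := productC pad r (productC pad r r)

@[fun_prop] lemma q_triplesC {pad : α → List Unit} {r : α → List ℕ} (hp : Q (k + 3) pad)
    (hr : Q (k + 3) r) : Q (k + 3) (fun a => triplesC (pad a) (r a)) := by
  unfold triplesC
  fun_prop

/-- clamped `keys` -/
def keysC (pad : List Unit) (r : List ℕ) : List Key :=
  productC pad (productC pad r r) (productC pad (productC pad r r) (productC pad (triplesC pad r)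
    (productC pad (triplesC pad r) (productC pad (triplesC pad r)
      (productC pad (triplesC pad r) (triplesC pad r))))))

@[fun_prop] lemma q_keysC {pad : α → List Unit} {r : α → List ℕ} (hp : Q (k + 3) pad)
    (hr : Q (k + 3) r) : Q (k + 3) (fun a => keysC (pad a) (r a)) := by
  unfold keysC
  fun_prop

@[fun_prop] lemma q_okSlot {R : α → Rel} {s : α → List ℕ} (hR : Q (k + 4) R)
    (hs : Q (k + 4) s) : Q (k + 4) (fun a => okSlot (R a) (s a)) := by
  have h : Q (k + 4) (fun p : Rel × List ℕ => okSlot p.1 p.2) := by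
    unfold okSlot
    fun_prop
  exact h.comp (f := fun a => (R a, s a)) (by fun_prop)

/-- clamped `base` -/
def baseC (pad : List Unit) (R : Rel) (js : List ℕ) : List Sch :=
  ((triplesC pad js).filter (fun s => s.1 != s.2.1 && s.1 != s.2.2 && s.2.1 != s.2.2 &&
    okSlot R [s.1, s.2.1, s.2.2])).map (fun s => [[s.1, s.2.1, s.2.2]])

@[fun_prop] lemma q_baseC {pad : α → List Unit} {R : α → Rel} {js : α → List ℕ}
    (hp : Q (k + 5) pad) (hR : Q (k + 5) R) (hj : Q (k + 5) js) :
    Q (k + 5) (fun a => baseC (pad a) (R a) (js a)) := by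
  have h : Q (k + 5) (fun p : List Unit × Rel × List ℕ => baseC p.1 p.2.1 p.2.2) := by
    unfold baseC
    exact Q.map0 (by fun_prop) (by fun_prop)
  exact h.comp (f := fun a => (pad a, R a, js a)) (by fun_prop)

@[fun_prop] lemma q_compat {R : α → Rel} {s t : α → Sch} (hR : Q (k + 4) R)
    (hs : Q (k + 4) s) (ht : Q (k + 4) t) : Q (k + 4) (fun a => compat (R a) (s a) (t a)) := by
  have h : Q (k + 4) (fun p : Rel × Sch × Sch => compat p.1 p.2.1 p.2.2) := by
    unfold compat
    fun_prop
  exact h.comp (f := fun a => (R a, s a, t a)) (by fun_prop)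

/-- clamped `cands` -/
def candsC (pad : List Unit) (R : Rel) (tab : List Sch) : List Sch :=
  ((productC pad tab tab).filter (fun p => compat R p.1 p.2)).map (fun p => p.1 ++ p.2)

@[fun_prop] lemma q_candsC {pad : α → List Unit} {R : α → Rel} {tab : α → List Sch}
    (hp : Q (k + 5) pad) (hR : Q (k + 5) R) (ht : Q (k + 5) tab) :
    Q (k + 5) (fun a => candsC (pad a) (R a) (tab a)) := by
  have h : Q (k + 5) (fun p : List Unit × Rel × List Sch => candsC p.1 p.2.1 p.2.2) := by
    unfold candsC
    exact Q.map0 (by fun_prop) (by fun_prop)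
  exact h.comp (f := fun a => (pad a, R a, tab a)) (by fun_prop)

@[fun_prop] lemma q_matchK {R : α → Rel} {js : α → List ℕ} {c : α → Key} {s : α → Sch}
    (hR : Q (k + 5) R) (hj : Q (k + 5) js) (hc : Q (k + 5) c) (hs : Q (k + 5) s) :
    Q (k + 5) (fun a => matchK (R a) (js a) (c a) (s a)) := by
  have h : Q (k + 5) (fun p : Rel × List ℕ × Key × Sch =>
      matchK p.1 p.2.1 p.2.2.1 p.2.2.2) := by
    unfold matchK
    fun_prop
  exact h.comp (f := fun a => (R a, js a, c a, s a)) (by fun_prop)

/-- clamped `pickAll` -/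
def pickAllC (pad : List Unit) (R : Rel) (js : List ℕ) (ks : List Key) (cs : List Sch) :
    List Sch :=
  flatMapC pad (fun c => (cs.find? (fun σ => matchK R js c σ)).toList) ks

@[fun_prop] lemma q_pickAllC {pad : α → List Unit} {R : α → Rel} {js : α → List ℕ}
    {ks : α → List Key} {cs : α → List Sch} (hp : Q (k + 7) pad) (hR : Q (k + 7) R)
    (hj : Q (k + 7) js) (hk : Q (k + 7) ks) (hc : Q (k + 7) cs) :
    Q (k + 7) (fun a => pickAllC (pad a) (R a) (js a) (ks a) (cs a)) := by
  have h : Q (k + 7) (fun p : List Unit × Rel × List ℕ × List Key × List Sch =>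
      pickAllC p.1 p.2.1 p.2.2.1 p.2.2.2.1 p.2.2.2.2) := by
    unfold pickAllC
    fun_prop
  exact h.comp (f := fun a => (pad a, R a, js a, ks a, cs a)) (by fun_prop)

/-- clamped `round` -/
def roundC (pad : List Unit) (R : Rel) (js : List ℕ) (ks : List Key) (tab : List Sch) :
    List Sch :=
  baseC pad R js ++ pickAllC pad R js ks (candsC pad R tab)

@[fun_prop] lemma q_roundC {pad : α → List Unit} {R : α → Rel} {js : α → List ℕ}
    {ks : α → List Key} {cs : α → List Sch} (hp : Q (k + 7) pad) (hR : Q (k + 7) R)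
    (hj : Q (k + 7) js) (hk : Q (k + 7) ks) (hc : Q (k + 7) cs) :
    Q (k + 7) (fun a => roundC (pad a) (R a) (js a) (ks a) (cs a)) := by
  unfold roundC
  fun_prop

/-- clamped `table` -/
def tableC (pad : List Unit) (R : Rel) (js : List ℕ) (ks : List Key) : List Sch :=
  foldC pad (fun tab _ => roundC pad R js ks tab) [] js

@[fun_prop] lemma q_tableC {pad : α → List Unit} {R : α → Rel} {js : α → List ℕ}
    {ks : α → List Key} (hp : Q (k + 8) pad) (hR : Q (k + 8) R)
    (hj : Q (k + 8) js) (hk : Q (k + 8) ks) :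
    Q (k + 8) (fun a => tableC (pad a) (R a) (js a) (ks a)) := by
  have h : Q (k + 8) (fun p : List Unit × Rel × List ℕ × List Key =>
      tableC p.1 p.2.1 p.2.2.1 p.2.2.2) := by
    unfold tableC
    fun_prop
  exact h.comp (f := fun a => (pad a, R a, js a, ks a)) (by fun_prop)

/-- clamped `solve` -/
def solveC (pad : List Unit) (R : Rel) (js : List ℕ) : Option Sch :=
  (tableC pad R js (keysC pad (js ++ [js.length]))).find?
    (fun σ => js.all (fun j => σ.flatten.contains j))

@[fun_prop] lemma q_solveC {pad : α → List Unit} {R : α → Rel} {js : α → List ℕ}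
    (hp : Q (k + 8) pad) (hR : Q (k + 8) R) (hj : Q (k + 8) js) :
    Q (k + 8) (fun a => solveC (pad a) (R a) (js a)) := by
  have h : Q (k + 8) (fun p : List Unit × Rel × List ℕ => solveC p.1 p.2.1 p.2.2) := by
    unfold solveC
    fun_prop
  exact h.comp (f := fun a => (pad a, R a, js a)) (by fun_prop)

@[fun_prop] lemma q_slot {s : α → Sch} {j : α → ℕ} (hs : Q (k + 3) s) (hj : Q (k + 3) j) :
    Q (k + 3) (fun a => slot (s a) (j a)) := by
  have h : Q (k + 3) (fun p : Sch × ℕ => slot p.1 p.2) := by
    unfold slot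
    fun_prop
  exact h.comp (f := fun a => (s a, j a)) (by fun_prop)

/-- clamped `best` -/
def bestC (pad : List Unit) (R : Rel) (n : ℕ) (big : List ℕ) : Sch :=
  (big.findSome? (fun N => if N < n then none else
    solveC pad R (big.filter (fun j => decide (j < N))))).getD []

@[fun_prop] lemma q_bestC {pad : α → List Unit} {R : α → Rel} {n : α → ℕ} {big : α → List ℕ}
    (hp : Q (k + 9) pad) (hR : Q (k + 9) R) (hn : Q (k + 9) n) (hb : Q (k + 9) big) :
    Q (k + 9) (fun a => bestC (pad a) (R a) (n a) (big a)) := by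
  have h : Q (k + 9) (fun p : List Unit × Rel × ℕ × List ℕ =>
      bestC p.1 p.2.1 p.2.2.1 p.2.2.2) := by
    unfold bestC
    fun_prop
  exact h.comp (f := fun a => (pad a, R a, n a, big a)) (by fun_prop)

/-- clamped `parseN` -/
def parseNC (pad : List Unit) (x : List Bool) : ℕ :=
  ((rangeC pad (false :: x).length).find?
    (fun m => (x.zip (Crest.Enc.natCode m)).map Prod.fst == Crest.Enc.natCode m)).getD 0

@[fun_prop] lemma q_parseNC {pad : α → List Unit} {x : α → List Bool} (hp : Q (k + 3) pad)
    (hx : Q (k + 3) x) : Q (k + 3) (fun a => parseNC (pad a) (x a)) := by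
  have h : Q (k + 3) (fun p : List Unit × List Bool => parseNC p.1 p.2) := by
    have h1 : Q (k + 2) (fun q : (List Unit × List Bool) × ℕ =>
        (q.1.2.zip (Crest.Enc.natCode q.2)).map Prod.fst) :=
      Q.map0 (by fun_prop) (Q.fst Q.id)
    unfold parseNC
    fun_prop
  exact h.comp (f := fun a => (pad a, x a)) (by fun_prop)

/-- clamped `parseJ` -/
def parseJC (pad : List Unit) (x : List Bool) : List ℕ :=
  (rangeC pad (false :: x).length).filter (fun j => decide (j < parseNC pad x))

@[fun_prop] lemma q_parseJC {pad : α → List Unit} {x : α → List Bool} (hp : Q (k + 4) pad)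
    (hx : Q (k + 4) x) : Q (k + 4) (fun a => parseJC (pad a) (x a)) := by
  have h : Q (k + 4) (fun p : List Unit × List Bool => parseJC p.1 p.2) := by
    unfold parseJC
    fun_prop
  exact h.comp (f := fun a => (pad a, x a)) (by fun_prop)

/-- clamped `parseE` -/
def parseEC (pad : List Unit) (x : List Bool) : Rel :=
  (((productC pad (parseJC pad x) (parseJC pad x)).zip
    ((Crest.Enc.natCode (parseNC pad x)).foldl (fun y _ => y.tail) x)).filter (fun p => p.2)).map
      (fun p => p.1)

@[fun_prop] lemma q_parseEC {pad : α → List Unit} {x : α → List Bool} (hp : Q (k + 4) pad)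
    (hx : Q (k + 4) x) : Q (k + 4) (fun a => parseEC (pad a) (x a)) := by
  have h : Q (k + 4) (fun p : List Unit × List Bool => parseEC p.1 p.2) := by
    unfold parseEC
    exact Q.map0 (by fun_prop) (by fun_prop)
  exact h.comp (f := fun a => (pad a, x a)) (by fun_prop)

/-- clamped `finish` -/
def finishC (pad : List Unit) (jn : List ℕ) (σ : Sch) : List Bool :=
  Crest.Enc.listCode (mapC pad (fun j => slot σ j) jn)

@[fun_prop] lemma q_finishC {pad : α → List Unit} {jn : α → List ℕ} {s : α → Sch}
    (hp : Q (k + 4) pad) (hj : Q (k + 4) jn) (hs : Q (k + 4) s) :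
    Q (k + 4) (fun a => finishC (pad a) (jn a) (s a)) := by
  have h : Q (k + 4) (fun p : List Unit × List ℕ × Sch => finishC p.1 p.2.1 p.2.2) := by
    unfold finishC
    fun_prop
  exact h.comp (f := fun a => (pad a, jn a, s a)) (by fun_prop)

/-- the clamped program -/
def progC (pad : List Unit) (x : List Bool) : List Bool :=
  finishC pad (parseJC pad x) (bestC pad
    (warshallP (productC pad (parseJC pad x) (parseJC pad x)) (parseJC pad x) (parseEC pad x))
    (parseJC pad x).length
    (rangeC pad (0 :: (parseJC pad x ++ parseJC pad x ++ parseJC pad x)).length))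

lemma q_progC : Q 9 (fun p : List Unit × List Bool => progC p.1 p.2) := by
  have : Q (0 + 9) (fun p : List Unit × List Bool => progC p.1 p.2) := by
    unfold progC
    fun_prop
  exact this

end Crest.Agent.R286
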